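import Crest.Agent.X212.Gl67.Job

/-!
# Row 212, GL (helper67), layer 3: the leaves of the gluing theorem

Every analytic leaf is a predicate on `d : Dat`, to be proved from `d.OK q₀ δ` (and `7 ≤ k`, finite
dimensional `U Up R`, and any other leaf).  `Wall` collects what depends on the wall.
-/

set_option autoImplicit false
set_option linter.unusedSectionVars false
noncomputable section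
open scoped Manifold ContDiff Topology InnerProductSpace ENNReal NNReal
open MeasureTheory Set Function Filter Module

namespace Crest.Agent.X212.Gj67
open An An.Job M Nd18 Mod61 Prm93
open Gl67 (Sid Sd Cm Eqn PP WW GG ka g0 q2)
open Map77 (Cf)
open Cyf70 (IC)

section gen
variable {E : Type} [NormedAddCommGroup E] [NormedSpace ℝ E] [FiniteDimensional ℝ E]
  [MeasurableSpace E] [BorelSpace E]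
  {HM : Type} [TopologicalSpace HM] {I : ModelWithCorners ℝ E HM} [I.Boundaryless]
  {M : Type} [TopologicalSpace M] [ChartedSpace HM M] [IsManifold I ∞ M]
  [MeasurableSpace M] [T2Space M] [BorelSpace M] [SecondCountableTopology M]
  {ι lam : Type} [Fintype ι] [Fintype lam]
  {T U Up R : Type} [NormedAddCommGroup T] [NormedSpace ℝ T] [NormedAddCommGroup U]
  [NormedSpace ℝ U] [NormedAddCommGroup Up] [NormedSpace ℝ Up] [NormedAddCommGroup R]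
  [NormedSpace ℝ R] {N : ℕ} {Jc : En (Fin N)} {𝔉 : Mod61.Fam I M ι lam T}

/-- explicit bounds for a side -/
structure SU (s : Sid 𝔉 N Jc U Up R) (C : ℕ → ℝ) : Prop where
  p : 𝔉.F0.CBs s.p C
  ρ : ∀ a, 𝔉.F0.CBs (s.ρ a) C
  j : 𝔉.F0.CBs s.j C
  A : ∀ a, 𝔉.F0.CBs (s.A0 a) C
  Φ : 𝔉.F0.CBs s.Φ0 C
  b : 𝔉.F0.CBs s.b C
  dr : ∀ a, 𝔉.F0.CBs (s.dr a) C
  h : ∀ a, 𝔉.F0.CBs (𝔉.F0.D a s.ht) C

end gen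

variable {Wi : Type} {X : Mf 4} {A κ lam : Type} [Fintype A] [Fintype κ] [Fintype lam]
  [DecidableEq lam] {M : Mark X A κ} {W : World M} {L : ML M lam} {Λ : Lns W L}
  {A' h : Type} [Fintype A'] [DecidableEq A'] [Fintype h] {r n : ℕ}
  {J : Job Wi Λ A' h r n} {σ : Cel A'} {a : A'}

/-! ### weak limits

To be proved from `J.OK`, `W.Nrm`, `Λ.Nrm`, `M.Up M.c0 c`, `c.1 ⊆ J.m.1`, `J.unc c = univ`. -/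

section lim
variable (J) (c : M.Cl)

/-- LEAF WU: weak limits are unique -/
def WU : Prop := ∀ (α : Type) (𝒰 : Ultrafilter α) (y : α → J.Obc M.c0) (y₀ y₁ : J.Obc c),
  (∀ᶠ i in (𝒰 : Filter α), (y i).Ok) → J.Θ y₀.s ∈ M.Br c.1 → y₀.Ok → y₁.Ok → Wd 𝒰 y y₀ →
    Wd 𝒰 y y₁ → Job.Iso y₀ y₁

/-- LEAF WC: weak limits and isomorphisms -/
def WC : Prop := ∀ (α : Type) (l : Filter α) (y y' : α → J.Obc M.c0) (y₀ y₁ : J.Obc c),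
  (∀ᶠ i in l, (y i).Ok ∧ (y' i).Ok ∧ Job.Iso (y i) (y' i)) → J.Θ y₀.s ∈ M.Br c.1 → y₀.Ok →
    y₁.Ok → Job.Iso y₀ y₁ → Wd l y y₀ → Wd l y' y₁

/-- LEAF WI: iterated limits -/
def WI : Prop := ∀ (α β : Type) (l : Filter α) (l' : Filter β) (y : α → J.Obc c) (y₀ : J.Obc c)
  (v : α → β → J.Obc M.c0), y₀.H = univ → y₀.Ok → (∀ i, (y i).Ok ∧ J.Θ (y i).s ∈ M.Br c.1) →
    (∀ i, ∀ᶠ j in l', (v i j).Ok) → Str l y y₀ → (∀ i, Wd l' (v i) (y i)) →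
    Wd (l.curry l') (fun p : α × β => v p.1 p.2) y₀

end lim

namespace Dat
variable {U Up R : Type} [NormedAddCommGroup U] [NormedSpace ℝ U] [NormedAddCommGroup Up]
  [NormedSpace ℝ Up] [NormedAddCommGroup R] [NormedSpace ℝ R] (d : Dat J σ a U Up R)
  (q₀ : Wi →₀ ℝ) (δ : ℝ) (k : ℕ)

/-- long necks -/
abbrev lg : Filter d.Ta := comap Subtype.val (𝓝 1)

/-- along all families of long necks and of perturbations near `q₀` -/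
def Seq (P : ∀ {α : Type}, Filter α → (α → d.Ta) → (α → Wi →₀ ℝ) → Prop) : Prop :=
  ∀ (α : Type) (l : Filter α) (τ : α → d.Ta) (q : α → Wi →₀ ℝ), Tendsto τ l d.lg → St.Cv l q q₀ →
    P l τ q

/-- the sides -/
abbrev sS (q : Wi →₀ ℝ) := d.S.sd d.cm (d.εS q)
abbrev sZ (τ : ℝ) (q : Wi →₀ ℝ) := (d.Z τ).sd0 d.cm (d.eZ q)
abbrev sX (τ : d.Ta) (q : Wi →₀ ℝ) := (d.Xs τ).sd d.cm (d.εX τ q)

/-- LEAF GEO -/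
structure Geo : Prop where
  act : ∀ᶠ τ in 𝓝[<] (1 : ℝ), Act J.m M.c0 d.x none (J.Θ (d.s τ 0))
  len : ∀ᶠ τ : d.Ta in d.lg, (τ : ℝ) < 1 ∧ ∀ t, (J.Θ (d.s τ t)).2 d.x = τ
  la : Tendsto (fun τ : d.Ta => d.la τ) d.lg atTop
  fam : ∃ r > 0, ∃ C, FU d.FS r C ∧ ∀ᶠ τ in d.lg, (d.FX τ).OK ∧ FU (d.FX τ) r C ∧
    ∀ i, (d.FX τ).F0.CBs ((d.FX τ).F0.D i (d.hX τ)) C
  φ : ∀ᶠ τ : d.Ta in d.lg, An.Iso d.FS.F0.toPre (d.FX τ).F0.toPre (d.φ τ) ∧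
    (d.φ τ).source = d.hS ⁻¹' Iio (d.la τ) ∧ (d.φ τ).target = d.hX τ ⁻¹' Iio (d.la τ) ∧
    ∀ z ∈ (d.φ τ).source, d.hX τ (d.φ τ z) = d.hS z ∧
      ∀ i, (d.Gh τ).a i (d.φ τ z) = d.FS.G0.a i z
  ψ : ∀ᶠ τ : d.Ta in d.lg, An.Iso d.D.Z.toPre (d.FX τ).F0.toPre (d.ψ τ) ∧
    (d.ψ τ).source = d.hZ τ ⁻¹' Ioi 0 ∧ (d.ψ τ).target = d.hX τ ⁻¹' Ioi 0 ∧
    ∀ z ∈ (d.ψ τ).source, d.hX τ (d.ψ τ z) = d.hZ τ z ∧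
      ∀ i, (d.Gh τ).a i (d.ψ τ z) = d.D.G.a i z
  ovl : ∀ᶠ τ : d.Ta in d.lg, ∀ z ∈ (d.φ τ).source, ∀ z' ∈ (d.ψ τ).source, d.φ τ z = d.ψ τ z' →
    ∃ b, z = (d.KS b).ψ (z'.1, z'.2 - pm b * (nl τ / 2)) ∧
      d.R0 < -pm b * (z'.2 - pm b * (nl τ / 2)) ∧ 1 ≤ pm b * z'.2

/-- LEAF BASE: the pre-glued side -/
def Base : Prop := ∃ C, ∀ᶠ τ in d.lg, (d.Xs τ).OK ∧ SU (d.Xs τ) C ∧
  (∀ z ∈ (d.φ τ).source, d.S.bd.pC z = (d.Xs τ).bd.pC (d.φ τ z)) ∧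
  (∀ z ∈ (d.ψ τ).source, (d.Z τ).bd.pC z = (d.Xs τ).bd.pC (d.ψ τ z)) ∧
  ∀ i, d.cm.ψ0 i ∈ Hd d.Jc ((d.Xs τ).md.pp (J.B M.c0) (J.cut M.c0 i).x0)

/-- LEAF OKE: smooth values -/
def Oke : Prop := ∃ ρ > 0, (d.sS q₀).Ok ρ ∧ (∀ τ q, (d.sZ τ q).Ok ρ) ∧ ∀ᶠ τ in d.lg,
  (∀ q, (d.sX τ q).Ok ρ) ∧ ∀ w ∈ Sec (W.Z M.c0).I (d.Xs τ).bd.pC, ∀ t, ‖t‖ ≤ ρ →
    (d.Xs τ).row t w ∈ Sec (W.Z M.c0).I (d.Xs τ).Pg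

/-- LEAF LIP-S -/
def LipS : Prop := ∃ ρ C : ℝ≥0, 0 < ρ ∧ (d.sS q₀).Lip δ k ρ ρ C

/-- LEAF LIP-Z -/
def LipZ : Prop := d.Seq q₀ fun l τ q =>
  ∃ ρ C : ℝ≥0, 0 < ρ ∧ ∀ᶠ i in l, (d.sZ (τ i) (q i)).Lip δ k ρ ρ C

/-- LEAF LIP-X -/
def LipX : Prop := d.Seq q₀ fun l τ q =>
  ∃ ρ C : ℝ≥0, 0 < ρ ∧ ∀ᶠ i in l, (d.sX (τ i) (q i)).Lip δ k ρ ρ C

/-- LEAF ZERO: the base configurations are solutions -/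
def Zer : Prop := ((d.sS q₀).E 0 0 = 0 ∧ (d.sS q₀).e 0 0 = 0) ∧
  ∃ ρ > 0, ∀ τ q p, ‖p‖ ≤ ρ → (d.sZ τ q).E 0 p = 0

/-- LEAF LOC-S -/
def LocS : Prop := d.Seq q₀ fun l τ q => ∃ ρ : ℝ≥0, 0 < ρ ∧ ∀ t, ∀ η : ℝ≥0, 0 < η → ∀ᶠ i in l,
  ∀ w ∈ Sec (W.Z M.c0).I (d.Xs (τ i)).bd.pC, tsupport w ⊆ d.hX (τ i) ⁻¹' Iic t → ∀ p, ‖p‖ ≤ ρ →
    (d.sX (τ i) (q i)).Q (g0 δ) univ (k + 1) w ≤ ρ →
    (d.sS q₀).Q (g0 δ) (Iic t) k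
        ((d.sS q₀).E (pull (d.φ (τ i)) w) p - (d.sX (τ i) (q i)).E w p ∘ d.φ (τ i)) +
      q2 ((d.sS q₀).e (pull (d.φ (τ i)) w) p - (d.sX (τ i) (q i)).e w p) ≤ η

/-- LEAF LOC-Z -/
def LocZ : Prop := d.Seq q₀ fun l τ q => ∃ ρ : ℝ≥0, 0 < ρ ∧ ∀ b, ∀ η : ℝ≥0, 0 < η → ∃ t, ∀ᶠ i in l,
  ∀ w ∈ Sec (W.Z M.c0).I (d.Xs (τ i)).bd.pC, ∀ w' ∈ Sec (W.Z M.c0).I (d.Xs (τ i)).bd.pC,
    tsupport w' ⊆ d.hX (τ i) ⁻¹' Ici 1 → (∀ x, b < d.hX (τ i) x → w' x = w x) → ∀ p, ‖p‖ ≤ ρ →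
    (d.sX (τ i) (q i)).Q (g0 δ) univ (k + 1) w ≤ ρ →
    (d.sX (τ i) (q i)).Q (g0 δ) univ (k + 1) w' ≤ ρ →
    (d.sZ (τ i) (q i)).Q (g0 δ) (Ici t) k ((d.sZ (τ i) (q i)).E (pull (d.ψ (τ i)) w') p -
      (d.sX (τ i) (q i)).E w p ∘ d.ψ (τ i)) ≤ η

/-- WALL ISO-S: the estimate on the face -/
def IsoS : Prop := ∃ K ρ : ℝ≥0, 0 < ρ ∧ ∀ w ∈ Sec (W.Z (J.cf a)).I d.S.bd.pC, ∀ p, ‖p‖ ≤ ρ →
  (d.sS q₀).Q (g0 δ) univ (k + 1) w ≤ ρ → (d.sS q₀).Q (g0 δ) univ (k + 1) w + q2 p ≤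
    K * ((d.sS q₀).Q (g0 δ) univ k ((d.sS q₀).E w p) + q2 ((d.sS q₀).e w p))

/-- WALL ISO-Z: the estimate on the cylinder (peaked weight) -/
def IsoZ : Prop := d.Seq q₀ fun l τ q => ∃ (K ρ : ℝ≥0) (b : ℝ), 0 < ρ ∧ ∀ᶠ i in l,
  ∀ w ∈ Sec (IC (J.xs d.x).Y.I) (d.Z (τ i)).bd.pC, tsupport w ⊆ d.hZ (τ i) ⁻¹' Ici b →
    ∀ p, ‖p‖ ≤ ρ → (d.sZ (τ i) (q i)).Q (g0 δ) univ (k + 1) w ≤ ρ →
    (d.sZ (τ i) (q i)).Q (g0 δ) univ (k + 1) w ≤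
      K * (d.sZ (τ i) (q i)).Q (g0 δ) univ k ((d.sZ (τ i) (q i)).E w p)

/-! #### the Banach model -/

abbrev EE (τ : d.Ta) : Type := (d.Xs τ).EE r (J.cut M.c0) δ k
abbrev Y1 (τ : d.Ta) : Type := (d.Xs τ).Y1 n (min r 1) (J.cut M.c0) δ k
abbrev YY (τ : d.Ta) : Type := d.Y1 δ k τ × (d.Xs τ).Y2 h δ k
abbrev Rep (τ : d.Ta) (q : Wi →₀ ℝ) (H : d.EE δ k τ → d.YY δ k τ) : Prop :=
  (d.Xs τ).Rep d.cm (d.εX τ q) δ k H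

/-- LEAF REP -/
def RepX : Prop := ∀ᶠ τ in d.lg, ∀ q, ∃ H, d.Rep δ k τ q H

/-- LEAF C11 -/
def C11 : Prop := d.Seq q₀ fun l τ q => ∃ ρ > 0, ∃ C, ∀ᶠ i in l, ∀ H, d.Rep δ k (τ i) (q i) H →
  ‖fderiv ℝ H 0‖ ≤ C ∧ ∀ v, ‖v‖ ≤ ρ → ‖fderiv ℝ H v - fderiv ℝ H 0‖ ≤ C * ‖v‖

/-- LEAF BOOT -/
def Boot : Prop := ∀ᶠ τ in d.lg, ∀ q H, d.Rep δ k τ q H → ∀ v ∈ (d.Xs τ).dom δ k,
  H v ∈ (d.Xs τ).Rs n (min r 1) (J.cut M.c0) δ k → ∃ w p, v = (d.Xs τ).sp δ k w p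

/-- LEAF FRX: the index (`ν = n₀ + dim σ`) -/
def Frx (ν : ℤ) : Prop := ∀ᶠ τ in d.lg, ∀ q H, d.Rep δ k τ q H →
  Fred93.Fr (fderiv ℝ H 0) (ν + finrank ℝ U - finrank ℝ Up - finrank ℝ R)

/-- LEAF LEV -/
def Lev : Prop := ∀ᶠ τ in d.lg, ∀ w ∈ Sec (W.Z M.c0).I (d.Xs τ).bd.pC, ∀ p : d.PH τ,
  p.1 ∈ (d.FX τ).Q → (d.ob τ w p).x.kap (J.B M.c0) (J.G M.c0 (d.s τ p.1)) = J.k

/-- LEAF SOLX: small zeros are top solutions -/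
def SolX : Prop := ∃ ρ > 0, ∀ᶠ τ in d.lg, ∀ (w : Sec (W.Z M.c0).I (d.Xs τ).bd.pC) (p : d.PH τ),
  ‖(d.Xs τ).sp δ k w p‖ ≤ ρ → (d.ob τ w p).Ok ∧ top0 (d.ob τ w p) ∧ ∀ q y,
    (d.Xs τ).Val d.cm (d.εX τ q) δ k w ((d.Xs τ).emb p) y → y.1 = 0 → Sol σ q (d.ob τ w p)

/-- a chart of the model `D` -/
structure Chart (D : J.Mdl) (Adm : (Wi →₀ ℝ) → Prop) (ρ : ℝ) (τ : d.Ta) (o : (D.Q σ).O)
    (Θ : d.EE δ k τ → (D.Q σ).C o) (j : (D.Q σ).E o →L[ℝ] d.Y1 δ k τ) : Prop where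
  inj : Injective j
  df : ∀ v, ‖v‖ < ρ → DifferentiableAt ℝ Θ v ∧ Θ v ∈ (D.Q σ).U o ∧ D.tc σ a o (Θ v) = τ ∧
    fderiv ℝ (D.tc σ a o) (Θ v) ≠ 0 ∧
    ∀ q H, d.Rep δ k τ q H → (H v).1 = j ((D.Q σ).F o q (Θ v))
  pt : ∀ w p, ‖(d.Xs τ).sp δ k w p‖ < ρ → ∃ y : (D.Q σ).S o,
    (D.Q σ).pt y = Θ ((d.Xs τ).sp δ k w p) ∧ Job.Iso (D.ob ⟨o, y⟩) (d.ob τ w p) ∧
    ∀ q, Adm q → Sol σ q (d.ob τ w p) → top0 (d.ob τ w p) → (⟨o, y⟩ : (D.Q σ).X) ∈ D.gx.M σ q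

/-- LEAF CHG -/
def Chg (D : J.Mdl) (Adm : (Wi →₀ ℝ) → Prop) : Prop :=
  ∃ ρ > 0, ∀ᶠ τ in d.lg, ∃ o Θ j, d.Chart δ k D Adm ρ τ o Θ j

/-- small smooth points -/
def Sml {α : Type} (l : Filter α) (τ : α → d.Ta)
    (w : ∀ i, Sec (W.Z M.c0).I (d.Xs (τ i)).bd.pC) (p : ∀ i, d.PH (τ i)) : Prop :=
  Tendsto τ l d.lg ∧
    Tendsto (fun i => (d.sX (τ i) 0).Q (g0 δ) univ (k + 1) (w i).1 + q2 (p i)) l (𝓝 0)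

/-- LEAF WX: small points converge weakly -/
def WX : Prop := ∀ (α : Type) (l : Filter α) τ w p, d.Sml δ k l τ w p →
  Wd l (fun i : α => d.ob (τ i) (w i) (p i)) d.y

/-- WALL DG: degenerating solutions are small points -/
def DG : Prop := ∀ (α : Type) (𝒰 : Ultrafilter α) (q : α → Wi →₀ ℝ) (y : α → J.Obc M.c0)
  (y₀ : J.Obc (J.cf a)), St.Cv (𝒰 : Filter α) q q₀ → (∀ᶠ i in (𝒰 : Filter α), Sol σ (q i) (y i)) →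
  Sol σ q₀ y₀ → y₀.Tight → Job.Iso d.y y₀ → Dg 𝒰 y y₀ → ∃ τ w p, d.Sml δ k 𝒰 τ w p ∧
    ∀ᶠ i in (𝒰 : Filter α), Job.Iso (d.ob (τ i) (w i) (p i)) (y i)

/-- what depends on the wall -/
structure Wall : Prop where
  ok : d.OK q₀ δ
  S : d.IsoS q₀ δ k
  Z : d.IsoZ q₀ δ k
  dg : d.DG q₀ δ k
  dim : 1 + finrank ℝ U = finrank ℝ Up + finrank ℝ R

/-- the generic leaves -/
structure Gen : Prop where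
  geo : d.Geo
  base : d.Base
  oke : d.Oke q₀
  lipS : d.LipS q₀ δ k
  lipZ : d.LipZ q₀ δ k
  lipX : d.LipX q₀ δ k
  zer : d.Zer q₀
  locS : d.LocS q₀ δ k
  locZ : d.LocZ q₀ δ k
  rep : d.RepX δ k
  c11 : d.C11 q₀ δ k
  boot : d.Boot δ k
  solX : d.SolX δ k
  wx : d.WX δ k

end Dat

/-- finite dimensional spaces -/
structure FD : Type 1 where
  V : Type
  [n : NormedAddCommGroup V]
  [s : NormedSpace ℝ V]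
  [f : FiniteDimensional ℝ V]

attribute [instance] FD.n FD.s FD.f

/-- **the inputs of `Kit.Gl σ a`** (`k` = Sobolev level of the models) -/
structure Inp (K : J.Kit) (σ : Cel A') (a : A') (k : ℕ) : Prop where
  hk : 7 ≤ k
  ax : K.Ax1
  mem : σ ∈ J.𝒦
  wa : a ∈ J.wa σ
  deg : K.Deg σ a = GDeg K.toMdl σ a
  lk : ∀ x, (K.Q σ).In x → ∀ a' ∈ J.wa σ, K.gx.pa x a' = (K.ob x).s a'
  wu : WU J (J.cf a)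
  wc : WC J (J.cf a)
  wi : WI J (J.cf a)
  dat : ∀ q₀, K.G q₀ → ∀ y : J.Obc (J.cf a), Sol σ q₀ y → y.Tight →
    (∀ a', σ a' = none → a' ≠ a → y.s a' ∈ Ioo (0 : ℝ) 1) →
    ∃ (U Up R : FD) (d : Dat J σ a U.V Up.V R.V) (δ : ℝ), Job.Iso d.y y ∧ d.Wall q₀ δ k ∧
      d.Gen q₀ δ k ∧ d.Frx δ k 1 ∧ d.Chg δ k K.toMdl K.Adm

end Crest.Agent.X212.Gj67
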