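import Crest.Agent.X212.Gl67.Hyp

/-!
# Row 212, GL (helper67): the gluing theorem `Inp.gl : Inp K σ a k → K.Gl σ a`
-/

set_option autoImplicit false
set_option linter.unusedSectionVars false
noncomputable section
open scoped Manifold ContDiff Topology InnerProductSpace ENNReal NNReal
open MeasureTheory Set Function Filter

namespace Crest.Agent.X212.Gj67
open An An.Job M Nd18 Mod61

section gen
variable {E : Type} [NormedAddCommGroup E] [NormedSpace ℝ E] [FiniteDimensional ℝ E]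
  [MeasurableSpace E] [BorelSpace E]
  {HM : Type} [TopologicalSpace HM] {I : ModelWithCorners ℝ E HM}
  {M : Type} [TopologicalSpace M] [ChartedSpace HM M] [IsManifold I ∞ M]
  [MeasurableSpace M] {ι : Type} [Fintype ι] {lam : Type} [Fintype lam] {r : ℕ}
  {α β : Type} {l : Filter α} {l' : Filter β} {f : β → α}

theorem WLim.comp {B : Base M ι lam} {e : α → ι → Π x : M, TangentSpace I x}
    {c : α → Cfg M ι lam r} {c₀ : Cfg M ι lam r} {u : ∀ i, M → CL (c i).m.V c₀.m.V}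
    {ζ : α → Circle} (h : WLim I B l e c c₀ u ζ) (hf : Tendsto f l' l) :
    WLim I B l' (fun i => e (f i)) (fun i => c (f i)) c₀ (fun i => u (f i))
      fun i => ζ (f i) := by
  have k : ∀ {V : Type} {x : M} {F : α → M → V} {z : Filter V},
      Tendsto (fun p : α × M => F p.1 p.2) (l ×ˢ 𝓝 x) z →
      Tendsto (fun p : β × M => F (f p.1) p.2) (l' ×ˢ 𝓝 x) z :=
    fun h => h.comp (f := fun p : β × M => (f p.1, p.2)) (hf.prodMap tendsto_id)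
  refine ⟨fun x => ?_, fun b x => ?_, fun x => ?_, ?_⟩
  · exact (h.m x).imp fun _ k => ⟨k.1, k.2.1, hf.eventually k.2.2⟩
  · exact k (F := fun i x => (Sob92.dv I (e i b) (u i) x + c₀.W b x ∘L u i x -
      u i x ∘L (c i).W b x) ∘L trn (u i x)) (h.A b x)
  · exact k (F := fun i x => cs c₀.m.J (ζ i) (u i x ((c i).Φ x))) (h.Φ x)
  · exact h.z.comp hf

theorem clim_comp {N : α → ℕ} {N₀ : ℕ} {J : En (Fin N₀)}
    {u : ∀ i, CL (Eu (Fin (N i))) (Eu (Fin N₀))} {ψ : ∀ i, L2c (Fin (N i))} {ψ₀ : L2c (Fin N₀)}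
    (h : CLim l J u ψ ψ₀) (hf : Tendsto f l' l) :
    CLim l' J (fun i => u (f i)) (fun i => ψ (f i)) ψ₀ :=
  let ⟨η, k⟩ := h; ⟨fun j => η (f j), k.comp hf⟩

end gen

variable {Wi : Type} {X : Mf 4} {A κ lam : Type} [Fintype A] [Fintype κ] [Fintype lam]
  [DecidableEq lam] {M : Mark X A κ} {W : World M} {L : ML M lam} {Λ : Lns W L}
  {A' h : Type} [Fintype A'] [DecidableEq A'] [Fintype h] {r n : ℕ}
  {J : Job Wi Λ A' h r n} {σ : Cel A'} {a : A'} {α β : Type}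

section wd
variable {c : M.Cl} {l : Filter α} {y : α → J.Obc M.c0} {y₀ : J.Obc c}

theorem Wd.of_dg (h : Dg l y y₀) (e : y₀.H = univ) : Wd l y y₀ :=
  let ⟨u, ζ, h1, h2⟩ := h.lim
  ⟨h.s, u, ζ, ⟨fun x => h1.m x trivial, fun b _ => (h1.A b).tendsto trivial,
    fun _ => h1.Φ.tendsto trivial, h1.z⟩, fun i => h2 i (e.ge trivial)⟩

theorem Wd.comp (h : Wd l y y₀) {l' : Filter β} {f : β → α} (hf : Tendsto f l' l) :
    Wd l' (fun i => y (f i)) y₀ := by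
  obtain ⟨u, ζ, h1, h2⟩ := h.lim
  refine ⟨h.s.comp hf, fun i => u (f i), fun i => ζ (f i), ?_, fun i => ?_⟩
  · exact h1.comp (e := fun i => J.fu c (y i).s) (c := fun i => pb (up c) (y i).x) hf
  · exact clim_comp (N := fun i => (y i).x.m.N) (u := fun j => u j (J.cut c i).x0)
      (ψ := fun j => (y j).ψ i) (h2 i) hf

end wd

namespace Inp
variable {K : J.Kit} {k : ℕ} (I : Inp K σ a k) {q₀ : Wi →₀ ℝ} {y y' : J.Obc (J.cf a)}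
  {𝒰 : Ultrafilter α} {q : α → Wi →₀ ℝ} {u u' : α → (K.Q σ).X}
include I

theorem mdl : K.toMdl.Ax K.Adm σ := I.ax.mdl σ I.mem

theorem ok {c : M.Cl} {y : J.Obc c} (h : Sol σ q₀ y) : y.Ok := h.ok I.ax.ok I.mem

theorem okM {x : (K.Q σ).X} (ha : K.Adm q₀) (h : x ∈ K.gx.M σ q₀) : (K.ob x).Ok :=
  I.ok (I.mdl.sol _ ha x h).1

theorem pa (hd : K.Deg σ a α 𝒰 u y) {a' : A'} (ha : a' ∈ J.wa σ) :
    Tendsto (fun i => K.gx.pa (u i) a') 𝒰 (𝓝 (y.s a')) := by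
  rw [I.deg] at hd
  obtain ⟨-, -, v, h1, h2⟩ := hd
  exact (tendsto_pi_nhds.1 h2.s a').congr' (h1.mono fun i hi =>
    (((I.mdl.cx.fa a' ha).e _ _ hi.1 hi.2).trans
      (I.lk _ (I.mdl.cx.ax.in_eqv _ _ hi.2 hi.1) a' ha)).symm)

variable (hq : K.G q₀) (hy : Sol σ q₀ y)
include hq hy

theorem fa : K.n₀ + dim σ = 1 := (I.ax.face hq I.mem hy (K.not_top (cf_ne I.wa) _)).1.1.1

/-- face objects lie over the interior of the face -/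
theorem int (a' : A') (h1 : σ a' = none) (h2 : a' ≠ a) : y.s a' ∈ Ioo (0 : ℝ) 1 := by
  have k : ∀ b, (a', b) ∈ J.wb σ → y.s a' ≠ b01 b := fun b hb e => by
    have hσ := I.ax.ok.down σ I.mem _ hb
    have hs : Sol (fc σ (a', b)) q₀ y := { hy with
      cell := ⟨fun x t hx => by
        rcases eq_or_ne x a' with rfl | hx'
        · obtain rfl : b = t := by simpa [Job.fc] using hx
          exact e
        · exact hy.cell.1 x t (by simpa [Job.fc, hx'] using hx), hy.cell.2⟩ }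
    have n1 := (I.ax.face hq hσ hs (K.not_top (cf_ne I.wa) _)).1.1.1
    have n2 : (K.Q (fc σ (a', b))).n = (K.Q σ).n - 1 := I.mdl.cx.n _ hb
    rw [(I.ax.mdl _ hσ).n, I.mdl.n, I.fa hq hy] at n2
    omega
  refine ⟨(hy.cell.2 a').1.lt_of_ne' (k false (mem_wb.2 ⟨h1, by simp⟩)),
    (hy.cell.2 a').2.lt_of_ne fun e => ?_⟩
  rcases e' : J.hd a' with _ | x
  · exact k true (mem_wb.2 ⟨h1, by simp [e']⟩) e
  · obtain ⟨s₀, s1, s2⟩ := I.ax.ok.lin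
    exact h2 (I.ax.ok.inj _ _ x e' (hy.inf.le ((s2 a' x e' _ (s1.le.trans e.ge)).1.trans e)))

variable (ht : y.Tight)
include ht

theorem H_eq : y.H = univ :=
  let ⟨_, _, _, _, _, _, h, _⟩ := I.dat q₀ hq y hy ht (I.int hq hy)
  (hy.H_eq ht.1).trans h.ok.unc

omit ht in
theorem deg_of (hu : ∀ᶠ i in (𝒰 : Filter α), (K.Q σ).In (u i))
    (h : Wd 𝒰 (fun i => K.ob (u i)) y) : K.Deg σ a α 𝒰 u y := by
  obtain ⟨x, hx⟩ := cf_nonempty I.wa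
  rw [I.deg]
  exact ⟨I.ax.ok.eq_one I.mem hy.ov hx hx, fun a' h1 h2 => (I.int hq hy a' (mem_wa.1 h1).1 h2).2,
    u, hu.mono fun i hi => ⟨hi, (K.Q σ).eqv.refl _⟩, h⟩

omit hq ht in
theorem wd_of (hu : ∀ᶠ i in (𝒰 : Filter α), K.Adm (q i) ∧ u i ∈ K.gx.M σ (q i))
    (hd : K.Deg σ a α 𝒰 u y) : Wd 𝒰 (fun i => K.ob (u i)) y := by
  rw [I.deg] at hd
  obtain ⟨-, -, v, h1, h2⟩ := hd
  refine I.wc α 𝒰 _ _ y y ((hu.and h1).mono fun i hi => ?_) (hy.br I.ax.ok I.mem) (I.ok hy)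
    (I.ok hy) (I.ok hy).refl h2
  have := I.mdl.cx.sat_M _ _ hi.2.2 hi.1.2
  exact ⟨I.okM hi.1.1 this, I.okM hi.1.1 hi.1.2,
    (I.mdl.eqv _ hi.1.1 _ this _ hi.1.2).1 ((K.Q σ).eqv.symm hi.2.2)⟩

section dat
variable {U Up R : FD} {d : Dat J σ a U.V Up.V R.V} {δ : ℝ} (e : Job.Iso d.y y)
  (hW : d.Wall q₀ δ k) (hc : St.Cv (𝒰 : Filter α) q q₀)
include e hW hc

omit ht in
/-- degenerating solutions lie in the gluing charts -/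
theorem cl (hu : ∀ᶠ i in (𝒰 : Filter α), K.Adm (q i) ∧ u i ∈ K.gx.M σ (q i))
    (h : Wd 𝒰 (fun i => K.ob (u i)) y) : ∃ τ : α → d.Ta, Tendsto τ 𝒰 d.lg ∧ ∀ ε > 0,
      ∀ᶠ i in (𝒰 : Filter α), K.gx.pa (u i) a = τ i ∧ d.Cl δ k (τ i) ε (K.ob (u i)) := by
  have hs := hu.mono fun i hi => (⟨hi.1, (I.mdl.sol _ hi.1 _ hi.2).1⟩ :
    K.Adm (q i) ∧ Sol σ (q i) (K.ob (u i)))
  have ce : ∀ {c} {y₀ : J.Obc c}, Sol σ q₀ y₀ →
      Tendsto (fun i => (K.ob (u i)).s) 𝒰 (𝓝 y₀.s) → c = J.cf a := fun h1 h2 =>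
    Subtype.ext (h1.inf.symm.trans (tendsto_nhds_unique h.s h2 ▸ hy.inf))
  rcases I.ax.comp σ I.mem q₀ hq.1 α 𝒰 q _ _ hc hs with ⟨y₀, h1, h2⟩ | ⟨c₀, y₀, h1, h2, h3⟩
  · exact (cf_ne I.wa (ce h1 (h2.resolve_right fun e => e.1 (I.ax.tight I.mem
      (K.top_iff.2 (I.ax.only_top hq I.mem h1)))).s).symm).elim
  obtain ⟨⟨-, h4, a', -, h5⟩, h6⟩ := (I.ax.face hq I.mem h2 (K.not_top (fun e =>
    (h1.trans_eq (congrArg Subtype.val e)).2 (empty_subset _)) _)).1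
  have h7 := h3 rfl (h5 ▸ cf_sub a') h4 h6
  obtain rfl := ce h2 h7.s
  obtain ⟨τ, w, p, h8, h9⟩ := hW.dg α 𝒰 q _ y₀ hc (hs.mono fun _ hi => hi.2) h2 h6
    (e.trans (I.wu α 𝒰 _ y y₀ (hs.mono fun _ hi => I.ok hi.2) (hy.br I.ax.ok I.mem) (I.ok hy)
      (I.ok h2) h (.of_dg h7 (I.H_eq hq h2 h6))) (I.ok hW.ok.sol) (I.ok hy) (I.ok h2)) h7
  refine ⟨τ, h8.1, fun ε hε => ?_⟩
  filter_upwards [hu, h9, ((Dat.sml h8.1).1 h8).eventually_le_const hε] with i h10 h11 h12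
  exact ⟨(I.lk _ h10.2.1.1 a I.wa).trans ((congrFun h11.1 a).symm.trans (by simp [Dat.ob, ee])),
    w i, p i, h12, h11⟩

end dat

theorem reg (hc : St.Cv (𝒰 : Filter α) q q₀)
    (hu : ∀ᶠ i in (𝒰 : Filter α), K.Adm (q i) ∧ u i ∈ K.gx.M σ (q i))
    (h : Wd 𝒰 (fun i => K.ob (u i)) y) : ∀ᶠ i in (𝒰 : Filter α), K.gx.Tr (q i) (u i) a := by
  obtain ⟨U, Up, R, d, δ, e, hW, hG, hF, hC⟩ := I.dat q₀ hq y hy ht (I.int hq hy)
  obtain ⟨τ, h1, h2⟩ := I.cl hq hy e hW hc hu h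
  obtain ⟨ε, hε, η, -, h3⟩ := Dat.pack hW hG h1 hc (by have := I.hk; omega) I.wa I.mdl
    (I.fa hq hy) hF hC (hu.mono fun _ hi => hi.1)
  filter_upwards [hu, h2 ε hε, h3] with i a1 a2 a3 using a3.tr _ a1.2 a2.2

theorem uq (hu : ∀ᶠ i in (𝒰 : Filter α), u i ∈ K.gx.M σ q₀ ∧ u' i ∈ K.gx.M σ q₀ ∧
      K.gx.pa (u i) a = K.gx.pa (u' i) a) (h : Wd 𝒰 (fun i => K.ob (u i)) y)
    (h' : Wd 𝒰 (fun i => K.ob (u' i)) y) : ∀ᶠ i in (𝒰 : Filter α), (K.Q σ).eqv (u i) (u' i) := by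
  obtain ⟨U, Up, R, d, δ, e, hW, hG, hF, hC⟩ := I.dat q₀ hq y hy ht (I.int hq hy)
  have hc := St.cv_const (𝒰 : Filter α) q₀
  obtain ⟨τ, h1, h2⟩ := I.cl hq hy e hW hc (hu.mono fun _ hi => ⟨hq.1, hi.1⟩) h
  obtain ⟨τ', -, h2'⟩ := I.cl hq hy e hW hc (hu.mono fun _ hi => ⟨hq.1, hi.2.1⟩) h'
  obtain ⟨ε, hε, η, -, h3⟩ := Dat.pack hW hG h1 hc (by have := I.hk; omega) I.wa I.mdl
    (I.fa hq hy) hF hC (.of_forall fun _ => hq.1)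
  filter_upwards [hu, h2 ε hε, h2' ε hε, h3] with i a1 a2 a3 a4
  exact a4.uq _ a1.1 _ a1.2.1 a2.2
    ((Subtype.ext (a3.1.symm.trans (a1.2.2.symm.trans a2.1)) : τ' i = τ i) ▸ a3.2)

theorem ex {𝒰 : Ultrafilter ℝ} (hU : (𝒰 : Filter ℝ) ≤ 𝓝[<] 1) : ∃ u : ℝ → (K.Q σ).X,
    (∀ᶠ T in (𝒰 : Filter ℝ), u T ∈ K.gx.M σ q₀ ∧ K.gx.pa (u T) a = T) ∧
      Wd 𝒰 (fun T => K.ob (u T)) y := by
  obtain ⟨U, Up, R, d, δ, e, hW, hG, hF, hC⟩ := I.dat q₀ hq y hy ht (I.int hq hy)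
  have h0 : ∀ᶠ T in (𝒰 : Filter ℝ), ∃ τ : d.Ta, (τ : ℝ) = T :=
    (hG.geo.act.filter_mono hU).mono fun T h => ⟨⟨T, h⟩, rfl⟩
  have : Nonempty d.Ta := let ⟨_, τ, _⟩ := h0.exists; ⟨τ⟩
  choose! τ hτ using fun T (h : ∃ τ : d.Ta, (τ : ℝ) = T) => h
  replace h0 := h0.mono hτ
  have h1 : Tendsto τ 𝒰 d.lg := tendsto_comap_iff.2
    ((tendsto_id'.2 (hU.trans nhdsWithin_le_nhds)).congr' (h0.mono fun _ h => h.symm))
  obtain ⟨ε, hε, η, h2, h3⟩ := Dat.pack hW hG h1 (St.cv_const _ q₀) (by have := I.hk; omega) I.wa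
    I.mdl (I.fa hq hy) hF hC (.of_forall fun _ => hq.1)
  have h4 := (h3.and (h2.eventually_le_const hε)).mono fun _ h => h.1.ex h.2
  have : Nonempty (K.Q σ).X := let ⟨_, _, _, _, x, _⟩ := h4.exists; ⟨x⟩
  choose! w p u h5 using fun T (h : ∃ w p x, ‖(d.Xs (τ T)).sp δ k w p‖ ≤ η T ∧
    x ∈ K.gx.M σ q₀ ∧ K.gx.pa x a = τ T ∧ Job.Iso (K.ob x) (d.ob (τ T) w p)) => h
  replace h4 := h4.mono fun T ⟨w, p, b, x, b'⟩ => h5 T ⟨w, p, x, b, b'⟩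
  have h6 := squeeze_zero' (.of_forall fun _ => norm_nonneg _) (h4.mono fun _ h => h.1) h2
  obtain ⟨ρ, h7, h8⟩ := hG.solX
  refine ⟨u, (h4.and h0).mono fun _ h => ⟨h.1.2.1, h.1.2.2.1.trans h.2⟩, I.wc ℝ 𝒰 _ _ d.y y ?_
    (hW.ok.sol.br I.ax.ok I.mem) (I.ok hW.ok.sol) (I.ok hy) e (hG.wx ℝ 𝒰 τ w p ((Dat.sml h1).2 h6))⟩
  filter_upwards [h4, h1.eventually h8, h6.eventually_le_const h7] with T a1 a2 a3
  have := I.okM hq.1 a1.2.1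
  exact ⟨(a2 _ _ a3).1, this, a1.2.2.2.symm this (a2 _ _ a3).1⟩

theorem isol {l : Filter α} {z : α → J.Obc (J.cf a)} (hz : ∀ i, Sol σ q₀ (z i) ∧ (z i).Tight)
    (hs : Str l z y) : ∀ᶠ i in l, Job.Iso (z i) y := by
  let 𝒱 := Ultrafilter.of (𝓝[<] (1 : ℝ))
  have hV : (𝒱 : Filter ℝ) ≤ 𝓝[<] 1 := Ultrafilter.of_le _
  choose u h1 h2 using fun i => I.ex hq (hz i).1 (hz i).2 hV
  obtain ⟨v, h3, h4⟩ := I.ex hq hy ht hV
  have br := fun i => (hz i).1.br I.ax.ok I.mem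
  have h5 := I.wi α ℝ l 𝒱 z y (fun i T => K.ob (u i T)) (I.H_eq hq hy ht) (I.ok hy)
    (fun i => ⟨I.ok (hz i).1, br i⟩) (fun i => (h1 i).mono fun _ h => I.okM hq.1 h.1) hs h2
  have h6 : ∀ᶠ p in l.curry 𝒱, (K.Q σ).eqv (u p.1 p.2) (v p.2) :=
    mem_iff_ultrafilter.2 fun 𝒲 h𝒲 => I.uq hq hy ht (h𝒲 (eventually_curry_iff.2 (.of_forall fun i =>
        ((h1 i).and h3).mono fun _ h => ⟨h.1.1, h.2.1, h.1.2.trans h.2.2.symm⟩)))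
      (h5.comp (tendsto_id'.2 h𝒲)) (h4.comp fun _ h => h𝒲
        (eventually_curry_iff.2 (.of_forall fun _ => h)))
  refine (eventually_curry_iff.1 h6).mono fun i hi => ?_
  have o := I.ok (hz i).1
  refine I.wu ℝ 𝒱 _ _ _ (h3.mono fun _ h => I.okM hq.1 h.1) (br i) o (I.ok hy)
    (I.wc ℝ 𝒱 _ _ _ _ ?_ (br i) o o o.refl (h2 i)) h4
  filter_upwards [hi, h1 i, h3] with T a1 a2 a3
  exact ⟨I.okM hq.1 a2.1, I.okM hq.1 a3.1, (I.mdl.eqv _ hq.1 _ a2.1 _ a3.1).1 a1⟩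

omit hq hy ht in
/-- **the gluing theorem** -/
theorem gl : K.Gl σ a where
  topf := I.ax.topf σ I.mem a I.wa
  isol _ hq _ _ _ hz hy ht hs := I.isol hq hy ht hz hs
  of_dg _ hq _ _ _ _ _ _ hu hy ht hd :=
    I.deg_of hq hy (hu.mono fun _ h => h.2.1.1) (.of_dg hd (I.H_eq hq hy ht))
  one _ _ _ _ hd := (I.deg ▸ hd : GDeg _ _ _ _ _ _ _).1 ▸ I.pa hd I.wa
  lt _ _ _ _ hd a' h1 h2 :=
    let ⟨c, h3, h4⟩ := exists_between ((I.deg ▸ hd : GDeg _ _ _ _ _ _ _).2.1 a' h1 h2)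
    ⟨c, h4, (I.pa hd h1).eventually_le_const h3⟩
  congr _ _ _ _ hd e := by
    rw [I.deg] at hd ⊢
    obtain ⟨h1, h2, v, h3, h4⟩ := hd
    exact ⟨h1, h2, v, (e.and h3).mono fun i hi => ⟨I.mdl.cx.ax.in_eqv _ _ hi.1.2 hi.1.1,
      (K.Q σ).eqv.trans ((K.Q σ).eqv.symm hi.1.2) hi.2.2⟩, h4⟩
  iso q hq 𝒰 u y y' hu hy _ hy' _ hd := by
    have h1 := hu.mono (q := fun i => K.Adm q ∧ u i ∈ K.gx.M σ q) fun _ h => ⟨hq.1, h⟩
    have h2 := hu.mono fun _ h => I.okM hq.1 h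
    have h3 := I.wd_of hy h1 hd
    have br := hy.br I.ax.ok I.mem
    exact ⟨fun hd' => I.wu ℝ 𝒰 _ _ _ h2 br (I.ok hy) (I.ok hy') h3 (I.wd_of hy' h1 hd'),
      fun e => I.deg_of hq hy' (hu.mono fun _ h => h.1.1) (I.wc ℝ 𝒰 _ _ _ _
        (h2.mono fun _ h => ⟨h, h, h.refl⟩) br (I.ok hy) (I.ok hy') e h3)⟩
  reg _ hq _ _ _ _ _ hc hu hy ht hd := I.reg hq hy ht hc hu (I.wd_of hy hu hd)
  ex _ hq _ hy ht _ hU := let ⟨u, h1, h2⟩ := I.ex hq hy ht hU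
    ⟨u, h1, I.deg_of hq hy (h1.mono fun _ h => h.1.1.1) h2⟩
  uniq q hq _ hy ht _ _ _ _ h1 h2 hd hd' := I.uq hq hy ht
    ((h1.and h2).mono fun _ h => ⟨h.1.1, h.2.1, h.1.2.trans h.2.2.symm⟩)
    (I.wd_of (q := fun _ => q) hy (h1.mono fun _ h => ⟨hq.1, h.1⟩) hd)
    (I.wd_of (q := fun _ => q) hy (h2.mono fun _ h => ⟨hq.1, h.1⟩) hd')

end Inp
end Crest.Agent.X212.Gj67
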