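import Crest.Agent.X212.Gl67.Defs

/-!
# Row 212, GL (helper67), layer 3: from the local norms to the Banach model (closed manifolds)
-/

set_option autoImplicit false
set_option linter.unusedSectionVars false
noncomputable section
open scoped Manifold ContDiff Topology InnerProductSpace ENNReal NNReal
open MeasureTheory Set Function Filter Metric

namespace Crest.Agent.X212.Gl67
open An Prm93 Mod61 Map77 Sob92 Neck67

section q
variable {P P' : Type} [NormedAddCommGroup P] [NormedAddCommGroup P'] {a : P} {b : P'}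

theorem q2_mono (e : ‖a‖ ≤ ‖b‖) : q2 a ≤ q2 b :=
  ENNReal.ofReal_le_ofReal (pow_le_pow_left₀ (norm_nonneg _) e 2)

theorem q2_fst (p : P × P') : q2 p.1 ≤ q2 p := q2_mono (norm_fst_le p)
theorem q2_snd (p : P × P') : q2 p.2 ≤ q2 p := q2_mono (norm_snd_le p)

theorem q2_le {p : P × P'} {c : ℝ≥0∞} (h1 : q2 p.1 ≤ c) (h2 : q2 p.2 ≤ c) : q2 p ≤ c :=
  (le_total ‖p.1‖ ‖p.2‖).elim (fun e => (q2_mono (max_le e le_rfl)).trans h2)
    fun e => (q2_mono (max_le le_rfl e)).trans h1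

theorem q2_small {ρ : ℝ≥0} (e : ‖a‖ ≤ min (ρ : ℝ) 1) : q2 a ≤ ρ := by
  rw [q2, ← ENNReal.ofReal_coe_nnreal]
  refine ENNReal.ofReal_le_ofReal ?_
  nlinarith [norm_nonneg a, e.trans (min_le_left _ _), e.trans (min_le_right _ _)]

theorem le_of_q2 {K : ℝ≥0} {ε : ℝ} (hε : 0 ≤ ε)
    (e : q2 a ≤ K * q2 b + ENNReal.ofReal (ε ^ 2)) : ‖a‖ ≤ (K + 1) * ‖b‖ + ε := by
  rw [q2, q2, ← ENNReal.ofReal_coe_nnreal, ← ENNReal.ofReal_mul K.coe_nonneg,
    ← ENNReal.ofReal_add (by positivity) (by positivity),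
    ENNReal.ofReal_le_ofReal_iff (by positivity)] at e
  refine abs_le_of_sq_le_sq' (e.trans ?_) (by positivity) |>.2
  have : (0 : ℝ) ≤ K := K.2
  nlinarith [norm_nonneg b, mul_nonneg (mul_nonneg this (norm_nonneg b)) hε, sq_nonneg (K * ‖b‖),
    mul_nonneg this (sq_nonneg ‖b‖), mul_nonneg (norm_nonneg b) hε]

theorem q2_tendsto {α : Type} {l : Filter α} {Q : α → Type} [∀ i, NormedAddCommGroup (Q i)]
    {u : ∀ i, Q i} : Tendsto (fun i => q2 (u i)) l (𝓝 0) ↔ Tendsto (fun i => ‖u i‖) l (𝓝 0) := by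
  refine ⟨fun h => ?_, fun h => ?_⟩
  · have := ((ENNReal.tendsto_toReal ENNReal.zero_ne_top).comp h).sqrt
    simpa [Function.comp_def, q2] using this
  · simpa [q2] using ENNReal.tendsto_ofReal (h.pow 2)

end q

variable {E : Type} [NormedAddCommGroup E] [NormedSpace ℝ E] [FiniteDimensional ℝ E]
  [MeasurableSpace E] [BorelSpace E]
  {HM : Type} [TopologicalSpace HM] {I : ModelWithCorners ℝ E HM} [I.Boundaryless]
  {M : Type} [TopologicalSpace M] [ChartedSpace HM M] [IsManifold I ∞ M]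
  [MeasurableSpace M] [T2Space M] [BorelSpace M] [SecondCountableTopology M]
  {ι lam h : Type} [Fintype ι] [Fintype lam] [Fintype h]

section jet
variable {V W : Type} [NormedAddCommGroup V] [NormedSpace ℝ V] [NormedAddCommGroup W]
  [NormedSpace ℝ W] {F : Pre I M ι} {x : M} {g : M → ℝ} {k : ℕ} {u : M → V} {v : M → W}

theorem J_clm (L : V →L[ℝ] W) (hL : ∀ a, ‖L a‖ ≤ ‖a‖) : ∀ (k : ℕ) {u : M → V}, Sm I u →
    J F k (fun y => L (u y)) x ≤ J F k u x
  | 0, _, _ => pow_le_pow_left₀ (norm_nonneg _) (hL _) 2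
  | k + 1, u, hu => add_le_add (pow_le_pow_left₀ (norm_nonneg _) (hL _) 2)
      (Finset.sum_le_sum fun a _ => (J_congr (.of_forall fun _ =>
        dv_clm L (hu.mdifferentiableAt (by simp)))).trans_le (J_clm L hL k (F.sm_D hu a)))

theorem J_sm (a : V) : ∀ (k : ℕ) {f : M → ℝ}, Sm I f →
    J F k (fun y => f y • a) x = J F k f x * ‖a‖ ^ 2
  | 0, _, _ => by simp only [J, norm_smul, mul_pow]
  | k + 1, f, hf => by
    have : ∀ b, J F k (F.D b fun y => f y • a) x = J F k (F.D b f) x * ‖a‖ ^ 2 := fun b =>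
      (J_congr (.of_forall fun _ => dv_clm ((ContinuousLinearMap.lsmul ℝ ℝ).flip a)
        (hf.mdifferentiableAt (by simp)))).trans (J_sm a k (F.sm_D hf b))
    simp only [J, norm_smul, mul_pow, this, add_mul, Finset.sum_mul]

theorem N_clm (L : V →L[ℝ] W) (hL : ∀ a, ‖L a‖ ≤ ‖a‖) (hu : Sm I u) :
    N F g univ k (fun y => L (u y)) ≤ N F g univ k u := lintegral_mono fun _ =>
  ENNReal.ofReal_le_ofReal (mul_le_mul_of_nonneg_left (J_clm L hL k hu) (Real.exp_pos _).le)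

theorem N_fst {u : M → V × W} (hu : Sm I u) : N F g univ k (fun y => (u y).1) ≤ N F g univ k u :=
  N_clm (.fst ℝ V W) norm_fst_le hu

theorem N_snd {u : M → V × W} (hu : Sm I u) : N F g univ k (fun y => (u y).2) ≤ N F g univ k u :=
  N_clm (.snd ℝ V W) norm_snd_le hu

theorem sm_fst {u : M → V × W} (hu : Sm I u) : Sm I fun y => (u y).1 :=
  (ContinuousLinearMap.fst ℝ V W).contMDiff.comp hu

theorem sm_snd {u : M → V × W} (hu : Sm I u) : Sm I fun y => (u y).2 :=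
  (ContinuousLinearMap.snd ℝ V W).contMDiff.comp hu

theorem N_pair (hg : Continuous g) {u : M → V × W} (hu : Sm I u) {c d : ℝ≥0∞}
    (h1 : N F g univ k (fun y => (u y).1) ≤ c) (h2 : N F g univ k (fun y => (u y).2) ≤ d) :
    N F g univ k u ≤ 2 * c + 2 * d := by
  have e : u = (fun y => ContinuousLinearMap.inl ℝ V W (u y).1) +
      fun y => ContinuousLinearMap.inr ℝ V W (u y).2 := funext fun y => by simp
  refine (congrArg _ e).trans_le ((N_add isOpen_univ .univ Subset.rfl hg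
    (smO ((ContinuousLinearMap.inl ℝ V W).contMDiff.comp (sm_fst hu)))
    (smO ((ContinuousLinearMap.inr ℝ V W).contMDiff.comp (sm_snd hu)))).trans ?_)
  gcongr
  · exact (N_clm _ (by simp) (sm_fst hu)).trans h1
  · exact (N_clm _ (by simp) (sm_snd hu)).trans h2

theorem N_sm (a : V) {f : M → ℝ} (hf : Sm I f) :
    N F g univ k (fun y => f y • a) = N F g univ k f * q2 a := by
  rw [N, N, q2, ← lintegral_mul_const' _ _ ENNReal.ofReal_ne_top]
  refine lintegral_congr fun x => ?_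
  rw [J_sm a k hf, ← mul_assoc, ENNReal.ofReal_mul' (sq_nonneg _)]

end jet

variable {T U Up R : Type} [NormedAddCommGroup T] [NormedSpace ℝ T] [NormedAddCommGroup U]
  [NormedSpace ℝ U] [NormedAddCommGroup Up] [NormedSpace ℝ Up] [NormedAddCommGroup R]
  [NormedSpace ℝ R] {N r n m : ℕ} {Jc : En (Fin N)} {𝔉 : Fam I M ι lam T}

namespace Sid
variable {s : Sid 𝔉 N Jc U Up R} {c : Cm N r h R} {ct : h → Cut M lam} {ε : Eqn 𝔉 r n m ct}
  {δ : ℝ} {k : ℕ} {V : Type} [NormedAddCommGroup V] [InnerProductSpace ℝ V] {p : M → V →L[ℝ] V}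

theorem wtP : Nk89.WtP 𝔉.F0.toPre (s.Fw δ).toPre fun x => g0 δ (s.ht x) :=
  (Nk89.wt_wt _ _).toWtP

theorem N_toH (w : Sec I p) :
    Gl67.N 𝔉.F0.toPre (fun x => g0 δ (s.ht x)) univ k w.1 = q2 ((s.Fw δ).toH k p w) := by
  rw [N_eq wtP (FL_of_hcs k w.2.1 w.2.2.1), q2, Pre.norm_toH, nrm_sq]

theorem norm_coe (ψ : ∀ i, (ct i).H 𝔉.B s.md) : ‖fun i => (ψ i : L2c (Fin N))‖ = ‖ψ‖ := rfl

theorem norm_emb (q : s.PH r ct) : ‖s.emb q‖ = ‖q‖ := rfl

theorem q2_sp (w : Sec I s.bd.pC) (q : s.PH r ct) :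
    (s.sd c ε).Q (g0 δ) univ (k + 1) w.1 ≤ q2 (s.sp δ k w q) ∧ q2 q ≤ q2 (s.sp δ k w q) ∧
      q2 (s.sp δ k w q) ≤ (s.sd c ε).Q (g0 δ) univ (k + 1) w.1 + q2 q :=
  ⟨(N_toH w).trans_le (q2_fst (s.sp δ k w q)), q2_snd (s.sp δ k w q),
    q2_le ((N_toH w).symm.trans_le le_self_add) le_add_self⟩

theorem dense_sp : Dense {v : s.EE r ct δ k | ∃ w q, v = s.sp δ k w q} :=
  (((s.Fw δ).dense_toH (k + 1) s.bd.pC).prodMap denseRange_id).mono <| by
    rintro _ ⟨⟨w, q⟩, rfl⟩; exact ⟨w, q, rfl⟩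

theorem OK.sup (H : s.OK) (hδ : 0 ≤ δ) : ∃ S, Sup (s.Fw δ).toPre S :=
  let ⟨_, hC⟩ := Cb_unif H.ch
  let ⟨_, h⟩ := (Nk89.ok_wtF H.fam (s.sm_pr δ 0 0 0) (fun _ => pr_nonneg hδ le_rfl)
    fun a => ⟨_, CBs_pr s.sh hC a⟩).tame
  ⟨_, .of_tame h⟩

variable [CompactSpace M] (H : s.OK) (hδ : 0 ≤ δ) (hk : 4 ≤ k)
include H hδ hk

theorem OK.eq_toH [CompleteSpace V] {y : (s.Fw δ).H k p} {f : M → V} (e : (s.Fw δ).val k p y = f)
    (hf : Sm I f) : ∃ w : Sec I p, w.1 = f ∧ y = (s.Fw δ).toH k p w :=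
  let ⟨_, hS⟩ := H.sup hδ
  let w : Sec I p := ⟨f, hf, .of_compactSpace f, fun x => e ▸ val_proj hS hk y x⟩
  ⟨w, rfl, val_injective hS hk (e.trans (val_toH hS hk w).symm)⟩

theorem OK.N_val [CompleteSpace V] {y : (s.Fw δ).H k p} {f : M → V} (e : (s.Fw δ).val k p y = f)
    (hf : Sm I f) : Gl67.N 𝔉.F0.toPre (fun x => g0 δ (s.ht x)) univ k f = q2 y := by
  obtain ⟨w, rfl, rfl⟩ := H.eq_toH hδ hk e hf
  exact N_toH w

/-- the two norms of the values -/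
theorem OK.q2_val {w : M → Cf ι (Fin N)} {q : PP T U r h N}
    {y : s.Y1 n m ct δ k × s.Y2 h δ k} (e : s.Val c ε δ k w q y) (hs : Sm I (s.eF c ε.e w q)) :
    (s.sd c ε).Q (g0 δ) univ k (s.eF c ε.e w q) + q2 (s.eR c ε w q) ≤ 23 * q2 y ∧
      q2 y ≤ (s.sd c ε).Q (g0 δ) univ k (s.eF c ε.e w q) + q2 (s.eR c ε w q) := by
  have g := (s.sm_pr δ 0 0 0).continuous
  have a1 := H.N_val hδ hk e.g (sm_fst hs)
  have a2 := H.N_val hδ hk e.D (sm_fst (sm_snd hs))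
  have a3 := H.N_val hδ hk e.C (sm_fst (sm_snd (sm_snd hs)))
  have a4 : Gl67.N 𝔉.F0.toPre (fun x => g0 δ (s.ht x)) univ k
      (fun x => (s.eF c ε.e w q x).2.2.2) = q2 y.2.2.1 := by
    refine (N_sm _ H.bp.1).trans ?_
    rw [e.pk, q2, q2, norm_smul, mul_pow, ENNReal.ofReal_mul (sq_nonneg _), Real.norm_eq_abs, sq_abs,
      nb, Real.sq_sqrt ENNReal.toReal_nonneg, ENNReal.ofReal_toReal]
    rw [N_eq wtP (FL_of_hcs k H.bp.1 H.bp.2)]
    exact ENNReal.ofReal_ne_top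
  rw [← e.e]
  set z : GG n m h N R := (y.1.1.2.2, fun i => (y.1.2.1 i : L2c (Fin N)), y.1.2.2, y.2.2.2)
  constructor
  · have b := N_pair g hs (a1.trans_le ((q2_fst _).trans (q2_snd y))) (N_pair g (sm_snd hs)
      (a2.trans_le ((q2_fst _).trans ((q2_fst _).trans (q2_fst y)))) (N_pair g (sm_snd (sm_snd hs))
        (a3.trans_le ((q2_fst _).trans ((q2_snd _).trans ((q2_fst _).trans (q2_fst y)))))
        (a4.trans_le ((q2_fst _).trans ((q2_snd _).trans (q2_snd y))))))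
    refine (add_le_add b (q2_le ((q2_snd _).trans ((q2_snd _).trans ((q2_fst _).trans (q2_fst y))))
      (q2_le ((q2_mono (norm_coe _).le).trans ((q2_fst _).trans ((q2_snd _).trans (q2_fst y))))
        (q2_le (p := z.2.2) ((q2_snd _).trans ((q2_snd _).trans (q2_fst y)))
          ((q2_snd y.2.2).trans ((q2_snd y.2).trans (q2_snd y))))))).trans_eq ?_
    ring
  · have s1 := sm_snd hs
    have s2 := sm_snd s1
    exact q2_le (q2_le (q2_le (a2.ge.trans ((N_fst s1).trans ((N_snd hs).trans le_self_add)))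
        (q2_le (a3.ge.trans ((N_fst s2).trans ((N_snd s1).trans ((N_snd hs).trans le_self_add))))
          ((q2_fst z).trans le_add_self)))
      (q2_le ((q2_mono (norm_coe _).ge).trans ((q2_fst z.2).trans ((q2_snd z).trans le_add_self)))
        ((q2_fst z.2.2).trans ((q2_snd z.2).trans ((q2_snd z).trans le_add_self)))))
      (q2_le (a1.ge.trans ((N_fst hs).trans le_self_add))
        (q2_le (a4.ge.trans ((N_snd s2).trans ((N_snd s1).trans ((N_snd hs).trans le_self_add))))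
          ((q2_snd z.2.2).trans ((q2_snd z.2).trans ((q2_snd z).trans le_add_self)))))

omit H in
/-- uniform local diffeomorphisms -/
theorem near [CompleteSpace T] [CompleteSpace U] [CompleteSpace Up] [CompleteSpace R] {α : Type}
    {l : Filter α} {𝔉 : α → Fam I M ι lam T} {s : ∀ i, Sid (𝔉 i) N Jc U Up R}
    {ε : ∀ i, Eqn (𝔉 i) r n m ct}
    {H : ∀ i, (s i).EE r ct δ k → (s i).Y1 n m ct δ k × (s i).Y2 h δ k} {ρ C : ℝ} (hρ : 0 < ρ)
    (ok : ∀ᶠ i in l, (s i).OK ∧ ((s i).sd c (ε i)).Ok ρ ∧ closedBall 0 ρ ⊆ (𝔉 i).Q ∧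
      (s i).Rep c (ε i) δ k (H i) ∧ Fred93.Fr (fderiv ℝ (H i) 0) 0 ∧ ‖fderiv ℝ (H i) 0‖ ≤ C ∧
      ∀ v, ‖v‖ ≤ ρ → ‖fderiv ℝ (H i) v - fderiv ℝ (H i) 0‖ ≤ C * ‖v‖)
    (low : ∃ K r : ℝ≥0, 0 < r ∧ ∀ η : ℝ≥0∞, η ≠ 0 → ∀ᶠ i in l, ∀ w ∈ Sec I (s i).bd.pC, ∀ q,
      ‖q‖ ≤ r → ((s i).sd c (ε i)).Q (g0 δ) univ (k + 1) w ≤ r →
      ((s i).sd c (ε i)).Q (g0 δ) univ (k + 1) w + q2 q ≤
        K * (((s i).sd c (ε i)).Q (g0 δ) univ k ((s i).eF c (ε i).e w q) +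
          q2 ((s i).eR c (ε i) w q)) + η)
    (zero : Tendsto (fun i => ((s i).sd c (ε i)).Q (g0 δ) univ k ((s i).eF c (ε i).e 0 0) +
      q2 ((s i).eR c (ε i) 0 0)) l (𝓝 0)) :
    ∃ C > 0, ∃ a > 0, a < ρ ∧ Tendsto (fun i => ‖H i 0‖) l (𝓝 0) ∧ ∀ᶠ i in l,
      (∃ (L : (s i).EE r ct δ k ≃L[ℝ] _) (H' : _), ‖L.symm.toContinuousLinearMap‖ ≤ C ∧
        Near L (H i) H' 0 a) ∧ ∀ u ∈ closedBall 0 a, ‖H i u - H i 0‖ ≤ C * ‖u‖ := by
  obtain ⟨K, r₀, r0, low⟩ := low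
  have v := ok.mono (q := fun i => ∀ w (q : (s i).PH r ct), ‖q‖ ≤ ρ → _) fun i a w q hq =>
    a.1.q2_val hδ hk (a.2.2.2.1.val w q (a.2.2.1
      (mem_closedBall_zero_iff.2 ((norm_fst_le q).trans hq)))) (a.2.1.smE _ w.2 _ hq)
  have h0 : Tendsto (fun i => ‖H i 0‖) l (𝓝 0) :=
    q2_tendsto.1 (tendsto_of_tendsto_of_tendsto_of_le_of_le' tendsto_const_nhds zero
      (.of_forall fun _ => zero_le) (v.mono fun i hi => by
        have := (hi 0 0 (norm_zero.trans_le hρ.le)).2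
        rwa [show (s i).sp δ k 0 0 = 0 from Prod.ext (map_zero _) rfl] at this))
  have c1 : (1 : ℝ) ≤ max C ((K * 23 : ℝ≥0) + 1) := le_max_of_le_right (by simp)
  have r1 : 0 < min ρ (min (r₀ : ℝ) 1) := lt_min hρ (lt_min r0 one_pos)
  refine ⟨_, mul_pos two_pos (one_pos.trans_le c1), _, lt_min (half_pos r1) (by positivity),
    (min_le_left _ _).trans_lt ((half_lt_self r1).trans_le (min_le_left _ _)), h0,
    near_of_low (H' := fun i => fderiv ℝ (H i)) c1 r1 (ok.mono fun i ⟨a1, _, a3, a4, a5, a6, a7⟩ =>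
      ⟨dense_sp, a5, a6.trans (le_max_left _ _), fun u hu => ?_⟩) (fun η hη => ?_) h0⟩
  · have b := (mem_closedBall_zero_iff.1 hu).trans (min_le_left _ _)
    exact ⟨((a4.sm.contDiffAt ((a1.fam.opn.preimage (by fun_prop)).mem_nhds (a3
      (mem_closedBall_zero_iff.2 ((norm_fst_le u.2).trans ((norm_snd_le u).trans b)))))).differentiableAt
        (by simp)).hasFDerivAt,
      (a7 u b).trans (mul_le_mul_of_nonneg_right (le_max_left _ _) (norm_nonneg _))⟩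
  filter_upwards [v, low (ENNReal.ofReal (η ^ 2)) (by simpa using hη.ne')] with i a1 a2
  rintro _ ⟨w, q, rfl⟩ hu
  have b := q2_sp (c := c) (ε := ε i) (δ := δ) (k := k) w q
  have b1 := (norm_snd_le _).trans hu
  refine (le_of_q2 (K := K * 23) hη.le ((b.2.2.trans (a2 _ w.2 ((s i).emb q)
    (b1.trans ((min_le_right _ _).trans (min_le_left _ _)))
    (b.1.trans (q2_small (hu.trans (min_le_right _ _)))))).trans ?_)).trans (by gcongr; simp)
  rw [ENNReal.coe_mul, mul_assoc]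
  gcongr
  exact (a1 w q (b1.trans (min_le_left _ _))).1

end Sid

end Crest.Agent.X212.Gl67
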