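import Crest.Agent.X212.Gl67.Leaf
import Crest.Agent.X212.Gl67.Brg
import Crest.Agent.X212.Eqv71.Job

/-!
# Row 212, GL (helper67), layer 3: the gluing charts are uniform local diffeomorphisms
-/

set_option autoImplicit false
set_option linter.unusedSectionVars false
noncomputable section
open scoped Manifold ContDiff Topology InnerProductSpace ENNReal NNReal
open MeasureTheory Set Function Filter Module Metric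

namespace Crest.Agent.X212.Gj67
open An An.Job M Nd18 Mod61 Prm93 Neck67
open Gl67 (Sid Sd Cm Eqn PP WW GG ka g0 q2 Gc)
open Map77 (Cf)

section gen
variable {E : Type} [NormedAddCommGroup E] [NormedSpace ℝ E] [FiniteDimensional ℝ E]
  [MeasurableSpace E] [BorelSpace E]
  {HM : Type} [TopologicalSpace HM] {I : ModelWithCorners ℝ E HM}
  {M : Type} [TopologicalSpace M] [ChartedSpace HM M] [IsManifold I ∞ M]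
  [MeasurableSpace M] {ι : Type} [Fintype ι]
  {V W P Γ : Type} [NormedAddCommGroup V] [InnerProductSpace ℝ V] [NormedAddCommGroup W]
  [NormedSpace ℝ W] [NormedAddCommGroup P] [NormedAddCommGroup Γ] {s : Sd I M ι V W P Γ}

theorem ok_mono {a b : ℝ} (h : s.Ok a) (e : b ≤ a) : s.Ok b :=
  ⟨h.sm, fun w hw q hq => h.smE w hw q (hq.trans e)⟩

theorem lip_mono {δ : ℝ} {k : ℕ} {a b C : ℝ≥0} (h : s.Lip δ k a a C) (e : b ≤ a) :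
    s.Lip δ k b b C := fun x y z h1 h2 h3 w hw w' hw' q q' a1 a2 a3 a4 =>
  h x y z h1 h2 h3 w hw w' hw' q q' (a1.trans e) (a2.trans e)
    (a3.trans (ENNReal.coe_le_coe.2 e)) (a4.trans (ENNReal.coe_le_coe.2 e))

end gen

variable {Wi : Type} {X : Mf 4} {A κ lam : Type} [Fintype A] [Fintype κ] [Fintype lam]
  [DecidableEq lam] {M : Mark X A κ} {W : World M} {L : ML M lam} {Λ : Lns W L}
  {A' h : Type} [Fintype A'] [DecidableEq A'] [Fintype h] {r n : ℕ}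
  {J : Job Wi Λ A' h r n} {σ : Cel A'} {a : A'}

theorem cpt0 (W : World M) : CompactSpace (W.Z M.c0).M :=
  Cyl58.caps_compact W.toCaps fun _ h => h.elim

theorem unc_c0 : J.unc M.c0 = univ := by simp [Job.unc, Mark.c0, Sys.cores]

/-- `Sol` is invariant under isomorphisms of unbroken objects -/
theorem sol_c0 (hJ : J.OK) (hσ : σ ∈ J.𝒦) {q : Wi →₀ ℝ} {y y' : J.Obc M.c0} (H : Sol σ q y)
    (h0 : y.l = 0) (h1 : y'.Ok) (e : Job.Iso y' y) (h2 : y'.H = univ) (h3 : y'.l = 0) :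
    Sol σ q y' := by
  obtain ⟨ξ, S⟩ := H.iso hJ hσ h1 e
  obtain ⟨s, x, _, ψ, β, ζ, k, j, l⟩ := y'
  obtain rfl : s = y.s := e.1
  obtain rfl := h2
  obtain rfl := h3
  have c : cylW M.c0 = ∅ := eq_empty_of_forall_notMem fun _ h => h.1
  exact ⟨S.cell, S.inf, S.sol, unc_c0.ge, fun i _ => S.cut i ((H.H_eq h0).ge (unc_c0.ge trivial)),
    by simp, fun _ _ h => h.2.2.2.elim, fun _ h => h.1.elim, fun _ h => h.1.elim, S.int,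
    by simpa [c, h0] using S.lev⟩

namespace Dat
variable {U Up R : Type} [NormedAddCommGroup U] [NormedSpace ℝ U] [NormedAddCommGroup Up]
  [NormedSpace ℝ Up] [NormedAddCommGroup R] [NormedSpace ℝ R] [FiniteDimensional ℝ U]
  [FiniteDimensional ℝ Up] [FiniteDimensional ℝ R] {d : Dat J σ a U Up R}
  {q₀ : Wi →₀ ℝ} {δ : ℝ} {k : ℕ} {D : J.Mdl} {Adm : (Wi →₀ ℝ) → Prop}

variable (d δ k) in
/-- `y` is a point of the chart at `τ` of size `≤ ε` -/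
def Cl (τ : d.Ta) (ε : ℝ) (y : J.Obc M.c0) : Prop :=
  ∃ w p, ‖(d.Xs τ).sp δ k w p‖ ≤ ε ∧ Job.Iso (d.ob τ w p) y

variable (d δ k D) in
/-- existence, transversality and uniqueness in the chart at `τ` -/
structure Gd (τ : d.Ta) (q : Wi →₀ ℝ) (ε η : ℝ) : Prop where
  ex : η ≤ ε → ∃ w p, ‖(d.Xs τ).sp δ k w p‖ ≤ η ∧ ∃ x ∈ D.gx.M σ q, D.gx.pa x a = τ ∧
    Job.Iso (D.ob x) (d.ob τ w p)
  tr : ∀ x ∈ D.gx.M σ q, d.Cl δ k τ ε (D.ob x) → D.gx.Tr q x a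
  uq : ∀ x ∈ D.gx.M σ q, ∀ x' ∈ D.gx.M σ q, d.Cl δ k τ ε (D.ob x) → d.Cl δ k τ ε (D.ob x') →
    (D.Q σ).eqv x x'

theorem gd {τ : d.Ta} {q : Wi →₀ ℝ} (hJ : J.OK) (hσ : σ ∈ J.𝒦) (wa : a ∈ J.wa σ)
    (hD : D.Ax Adm σ) (hn : D.n₀ + dim σ = 1) (ha : Adm q) (hδ : 0 ≤ δ) (hk : 4 ≤ k)
    {H : d.EE δ k τ → d.YY δ k τ} {C b ρ ρ₁ ρ₂ : ℝ} (hC : 0 < C) (b0 : b < ρ)
    (b1 : ρ ≤ ρ₁) (b2 : ρ ≤ ρ₂) (ok : (d.Xs τ).OK) (sm : (d.sX τ q).Ok ρ)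
    (hQ : closedBall 0 ρ ⊆ (d.FX τ).Q) (rep : d.Rep δ k τ q H)
    (near : ∃ (L : d.EE δ k τ ≃L[ℝ] _) (H' : _), ‖L.symm.toContinuousLinearMap‖ ≤ C ∧
      Near L H H' 0 b) (lip : ∀ u ∈ closedBall 0 b, ‖H u - H 0‖ ≤ C * ‖u‖)
    (boot : ∀ v ∈ (d.Xs τ).dom δ k, H v ∈ (d.Xs τ).Rs n (min r 1) (J.cut M.c0) δ k →
      ∃ w p, v = (d.Xs τ).sp δ k w p)
    (sol : ∀ (w : Sec (W.Z M.c0).I (d.Xs τ).bd.pC) (p : d.PH τ), ‖(d.Xs τ).sp δ k w p‖ ≤ ρ₁ →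
      (d.ob τ w p).Ok ∧ top0 (d.ob τ w p) ∧ ∀ q y,
        (d.Xs τ).Val d.cm (d.εX τ q) δ k w ((d.Xs τ).emb p) y → y.1 = 0 → Sol σ q (d.ob τ w p))
    {o : (D.Q σ).O} {Θ : d.EE δ k τ → (D.Q σ).C o} {j : (D.Q σ).E o →L[ℝ] d.Y1 δ k τ}
    (ch : d.Chart δ k D Adm ρ₂ τ o Θ j) :
    d.Gd δ k D τ q (min b (b / (2 * C * C))) (2 * C * ‖H 0‖) := by
  have := cpt0 W
  have hx := hD.cx.ax
  have ht : InvF (D.Q σ) (D.tc σ a) := hD.cx.fa a wa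
  have n1 := hD.n.trans hn
  have c1 : ∀ {v : d.EE δ k τ}, ‖v‖ ≤ b → ‖v‖ ≤ ρ₁ := fun e => e.trans (b0.le.trans b1)
  have c2 : ∀ {v : d.EE δ k τ}, ‖v‖ ≤ b → ‖v‖ < ρ₂ := fun e => e.trans_lt (b0.trans_le b2)
  have c3 : ∀ {v : d.EE δ k τ}, ‖v‖ ≤ b → ‖v.2‖ ≤ ρ := fun e => (norm_snd_le _).trans (e.trans b0.le)
  have c4 : ∀ {v : d.EE δ k τ}, ‖v‖ ≤ b → v.2.1 ∈ (d.FX τ).Q := fun e =>
    hQ (mem_closedBall_zero_iff.2 ((norm_fst_le _).trans (c3 e)))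
  have cv : Convex ℝ ((d.Xs τ).Rs n (min r 1) (J.cut M.c0) δ k) := by
    rintro y ⟨y1, g, y2⟩ y' ⟨y3, g', y4⟩ s t - - -
    exact ⟨by simp [y1, y3], s • g + t • g', by simp [y2, y4]⟩
  let G : Gc (D.Q σ) := ⟨fun _ => o, fun _ => d.EE δ k τ, fun _ => d.YY δ k τ, fun _ => Θ,
    fun _ _ => H, fun s => {v | s = τ ∧ ‖v‖ < ρ₂ ∧ ∃ w p, v = (d.Xs τ).sp δ k w p},
    fun _ => (d.Xs τ).Rs n (min r 1) (J.cut M.c0) δ k⟩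
  have hL : G.Lev (D.tc σ a) := fun s u hu => (ch.df u hu.2.1).2.2.1.trans hu.1.symm
  have hO : G.Ok (D.tc σ a) (D.gx.M σ q) q τ C b := by
    refine ⟨near, lip, fun u hu => (ch.df u (c2 (mem_closedBall_zero_iff.1 hu))).1.continuousAt
      |>.continuousWithinAt, fun u hu e => ?_, fun u hu e e' => ?_, fun u hu e => ?_, cv,
      rfl, 0, (map_zero _).symm⟩
    · replace hu := mem_closedBall_zero_iff.1 hu
      obtain ⟨w, p, rfl⟩ := boot u (c4 hu) e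
      obtain ⟨y, y1, -, y2⟩ := ch.pt w p (c2 hu)
      obtain ⟨-, s1, s2⟩ := sol w p (c1 hu)
      exact ⟨⟨rfl, c2 hu, w, p, rfl⟩, y, y1, y2 q ha (s2 q _ (rep.val w p (c4 hu)) e.1) s1⟩
    · replace hu := mem_closedBall_zero_iff.1 hu
      obtain ⟨-, -, w, p, rfl⟩ := e
      obtain ⟨g, -, hg⟩ := ok.eq_toH hδ hk (rep.val w p (c4 hu)).g
        (Gl67.sm_fst (sm.smE _ w.2 _ (c3 hu)))
      exact ⟨((ch.df _ (c2 hu)).2.2.2.2 q H rep).trans ((congrArg j e').trans (map_zero j)), g, hg⟩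
    · obtain ⟨L, H', -, hN⟩ := near
      obtain ⟨B, hB, -⟩ := hN.inv hu
      obtain ⟨d1, d2, -, d3, -⟩ := ch.df u e.2.1
      obtain ⟨c, hc⟩ := DFunLike.ne_iff.1 d3
      have v : ∀ᶠ v in 𝓝 u, ‖v‖ < ρ₂ := (isOpen_lt continuous_norm continuous_const).mem_nhds e.2.1
      exact Gl67.tr_of_lev (hN.hd u hu) (hB ▸ B.surjective) d1.hasFDerivAt
        (hx.strictF q d2).hasFDerivAt (((ht.sm o).contDiffAt ((hx.isOpen o).mem_nhds d2)).differentiableAt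
          one_ne_zero).hasFDerivAt ch.inj (v.mono fun v hv => (ch.df v hv).2.2.2.2 q H rep)
        (v.mono fun v hv => (ch.df v hv).2.2.1) hc
  have pt : ∀ x ∈ D.gx.M σ q, d.Cl δ k τ (min b (b / (2 * C * C))) (D.ob x) →
      ∃ v ∈ G.D τ, ‖v‖ ≤ b ∧ 2 * C * (C * ‖v‖) ≤ b ∧ ∃ y, (D.Q σ).pt y = Θ v ∧
        (D.Q σ).Sol q ⟨o, y⟩ ∧ (D.Q σ).eqv ⟨o, y⟩ x := by
    rintro x hx ⟨w, p, e, i⟩
    have e1 := e.trans (min_le_left _ _)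
    obtain ⟨y, y1, y2, y3⟩ := ch.pt w p (c2 e1)
    obtain ⟨s1, s2, -⟩ := sol w p (c1 e1)
    obtain ⟨x1, x2⟩ := hD.sol q ha x hx
    have y4 := y3 q ha (sol_c0 hJ hσ x1 (hD.l0 _ x2) s1 i rfl rfl) s2
    refine ⟨_, ⟨rfl, c2 e1, w, p, rfl⟩, e1, ?_, y, y1, y4.1, (hD.eqv q ha _ y4 _ hx).2
      (y2.trans i ((hD.sol q ha _ y4).1.ok hJ hσ) s1 (x1.ok hJ hσ))⟩
    rw [← mul_assoc]
    exact (le_div_iff₀' (by positivity)).1 (e.trans (min_le_right _ _))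
  refine ⟨fun e => ?_, fun x hx' e => ?_, fun x hx' x' hx'' e e' => ?_⟩
  · obtain ⟨_, ⟨-, v1, w, p, rfl⟩, v2, y, y1, y2⟩ := hO.ex (e.trans (min_le_left _ _))
    have e1 := v2.trans (e.trans (min_le_left _ _))
    obtain ⟨y', z1, z2, z3⟩ := ch.pt w p v1
    obtain ⟨-, s2, s3⟩ := sol w p (c1 e1)
    exact ⟨w, p, v2, _, z3 q ha (s3 q _ (rep.val w p (c4 e1)) (((ch.df _ v1).2.2.2.2 q H rep).trans
      ((congrArg j ((congrArg ((D.Q σ).F o q) y1).symm.trans y2.1.2)).trans (map_zero j)))) s2, hL.val ⟨rfl, v1, w, p, rfl⟩ z1, z2⟩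
  · obtain ⟨v, v1, v2, -, y, y1, y2, y3⟩ := pt x hx' e
    exact Gl67.tr_eqv hx ht n1 ha y2 (hO.trv v2 v1 y1) y3
  · obtain ⟨v, v1, v2, v3, y, y1, y2, y3⟩ := pt x hx' e
    obtain ⟨v', w1, w2, w3, y', z1, z2, z3⟩ := pt x' hx'' e'
    exact (D.Q σ).eqv.trans ((D.Q σ).eqv.symm y3) ((D.Q σ).eqv.trans
      (hO.uniq hx ht n1 ha hL (fun _ h => h.1) hC v1 w1 v2 w2 v3 w3 y1 z1 y2 z2) z3)

variable (hW : d.Wall q₀ δ k) (hG : d.Gen q₀ δ k)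
  {α : Type} {l : Filter α} {τ : α → d.Ta} {q : α → Wi →₀ ℝ} (hτ : Tendsto τ l d.lg)
  (hq : St.Cv l q q₀)
include hW hG hτ hq

theorem hyp : ∃ ρ : ℝ≥0, Gl67.Hyp l (fun i => d.sX (τ i) (q i)) (d.sS q₀)
    (fun i => d.sZ (τ i) (q i)) (fun i => d.φ (τ i)) (fun i => d.ψ (τ i)) δ k ρ ρ := by
  obtain ⟨ρ₁, p1, o1, o2, o3⟩ := hG.oke
  obtain ⟨ρ₂, C₂, p2, l2⟩ := hG.lipS
  obtain ⟨ρ₃, C₃, p3, l3⟩ := hG.lipZ α l τ q hτ hq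
  obtain ⟨ρ₄, C₄, p4, l4⟩ := hG.lipX α l τ q hτ hq
  obtain ⟨z1, ρ₅, p5, z2⟩ := hG.zer
  obtain ⟨ρ₆, p6, c6⟩ := hG.locS α l τ q hτ hq
  obtain ⟨ρ₇, p7, c7⟩ := hG.locZ α l τ q hτ hq
  obtain ⟨_, -, C, -, hC⟩ := hG.geo.fam
  obtain ⟨_, hB⟩ := hG.base
  lift ρ₁ to ℝ≥0 using p1.le
  lift ρ₅ to ℝ≥0 using p5.le
  obtain ⟨ρ, p, e⟩ : ∃ ρ : ℝ≥0, 0 < ρ ∧ ρ ≤ ρ₁ ∧ ρ ≤ ρ₂ ∧ ρ ≤ ρ₃ ∧ ρ ≤ ρ₄ ∧ ρ ≤ ρ₅ ∧ ρ ≤ ρ₆ ∧
      ρ ≤ ρ₇ := ⟨ρ₁ ⊓ (ρ₂ ⊓ (ρ₃ ⊓ (ρ₄ ⊓ (ρ₅ ⊓ (ρ₆ ⊓ ρ₇))))), by simp_all, by simp⟩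
  obtain ⟨e1, e2, e3, e4, e5, e6, e7⟩ := e
  have e6' := ENNReal.coe_le_coe.2 e6
  have e7' := ENNReal.coe_le_coe.2 e7
  refine ⟨ρ, hW.ok.δ0, p, p, (hτ.eventually o3).mono fun i hi => ok_mono (hi.1 _) e1,
    ok_mono o1 e1, .of_forall fun i => ok_mono (o2 _ _) e1,
    ⟨_, (hτ.eventually hC).mono fun i hi b => (hi.2.2 b).2 _⟩,
    (hτ.eventually (hG.geo.φ.and hB)).mono fun i hi =>
      ⟨hi.1.1, fun z hz => (hi.1.2.2.2 z hz).1, hi.2.2.2.1⟩, fun t => ?_,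
    (hτ.eventually (hG.geo.ψ.and hB)).mono fun i hi =>
      ⟨⟨hi.1.1, fun z hz => (hi.1.2.2.2 z hz).1, hi.2.2.2.2.1⟩,
        (preimage_mono (Ici_subset_Ioi.2 one_pos)).trans hi.1.2.1.ge,
        (preimage_mono (Ici_subset_Ioi.2 one_pos)).trans hi.1.2.2.1.ge⟩,
    ⟨_, l4.mono fun _ hi => lip_mono hi e4⟩, ⟨_, lip_mono l2 e2⟩,
    ⟨_, l3.mono fun _ hi => lip_mono hi e3⟩, z1, .of_forall fun i p hp => z2 _ _ p (hp.trans e5),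
    hW.S, hW.Z α l τ q hτ hq, fun t η hη => (c6 t η hη).mono fun i hi w a1 a2 p a3 a4 =>
      hi w a1 a2 p (a3.trans e6) (a4.trans e6'), fun b η hη => (c7 b η hη).imp fun t ht =>
      ht.mono fun i hi w a1 w' a2 a3 a4 p a5 a6 a7 =>
        hi w a1 w' a2 a3 a4 p (a5.trans e7) (a6.trans e7') (a7.trans e7')⟩
  filter_upwards [hτ.eventually (hG.geo.φ.and (hG.geo.la.eventually_gt_atTop t))] with i hi
  exact ⟨(preimage_mono (Iic_subset_Iio.2 hi.2)).trans hi.1.2.1.ge,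
    (preimage_mono (Iic_subset_Iio.2 hi.2)).trans hi.1.2.2.1.ge⟩

omit hW hG hq in
theorem sml {w : ∀ i, Sec (W.Z M.c0).I (d.Xs (τ i)).bd.pC} {p : ∀ i, d.PH (τ i)} :
    d.Sml δ k l τ w p ↔ Tendsto (fun i => ‖(d.Xs (τ i)).sp δ k (w i) (p i)‖) l (𝓝 0) := by
  have b := fun i => Sid.q2_sp (c := d.cm) (ε := d.εX (τ i) 0) (δ := δ) (k := k) (w i) (p i)
  rw [← Gl67.q2_tendsto]
  refine ⟨fun h => ?_, fun h => ⟨hτ, ?_⟩⟩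
  · exact tendsto_of_tendsto_of_tendsto_of_le_of_le tendsto_const_nhds h.2 (fun _ => zero_le)
      fun i => (b i).2.2
  · exact tendsto_of_tendsto_of_tendsto_of_le_of_le tendsto_const_nhds (by simpa using h.add h)
      (fun _ => zero_le) fun i => add_le_add (b i).1 (b i).2.1

/-- **the gluing charts** -/
theorem pack (hk : 4 ≤ k) (wa : a ∈ J.wa σ) (hD : D.Ax Adm σ) (hn : D.n₀ + dim σ = 1)
    (hF : d.Frx δ k 1) (hC : d.Chg δ k D Adm) (ha : ∀ᶠ i in l, Adm (q i)) :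
    ∃ ε > 0, ∃ η : α → ℝ, Tendsto η l (𝓝 0) ∧ ∀ᶠ i in l, d.Gd δ k D (τ i) (q i) ε (η i) := by
  have := cpt0 W
  have := FiniteDimensional.complete ℝ U
  have := FiniteDimensional.complete ℝ Up
  have := FiniteDimensional.complete ℝ R
  obtain ⟨ρ₀, H0⟩ := hyp hW hG hτ hq
  obtain ⟨ρ₁, p1, s1⟩ := hG.solX
  obtain ⟨ρ₂, p2, s2⟩ := hC
  obtain ⟨ρ₃, p3, C, s3⟩ := hG.c11 α l τ q hτ hq
  obtain ⟨ρ₄, p4, _, -, s4⟩ := hG.geo.fam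
  obtain ⟨_, hB⟩ := hG.base
  have : ∀ i, Nonempty (d.EE δ k (τ i) → d.YY δ k (τ i)) := fun _ => ⟨0⟩
  choose! H hH using fun i (h : ∃ H, d.Rep δ k (τ i) (q i) H) => h
  have r1 : ∀ᶠ i in l, d.Rep δ k (τ i) (q i) (H i) :=
    (hτ.eventually hG.rep).mono fun i hi => hH i (hi _)
  obtain ⟨ρ, p, e0, e1, e2, e3, e4⟩ : 
      ∃ ρ > (0 : ℝ), ρ ≤ ρ₀ ∧ ρ ≤ ρ₁ ∧ ρ ≤ ρ₂ ∧ ρ ≤ ρ₃ ∧ ρ ≤ ρ₄ :=
    ⟨(ρ₀ : ℝ) ⊓ (ρ₁ ⊓ (ρ₂ ⊓ (ρ₃ ⊓ ρ₄))), lt_min H0.r0 (lt_min p1 (lt_min p2 (lt_min p3 p4))),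
      by simp⟩
  have k1 : ∀ᶠ i in l, (d.Xs (τ i)).OK ∧ (d.sX (τ i) (q i)).Ok ρ ∧
      closedBall 0 ρ ⊆ (d.FX (τ i)).Q := by
    filter_upwards [hτ.eventually (hB.and s4), H0.okX] with i a1 a2
    exact ⟨a1.1.1, ok_mono a2 e0, (closedBall_subset_closedBall e4).trans a1.2.2.1.sub⟩
  obtain ⟨C', c0, b, b0, b1, z, hN⟩ := Sid.near hW.ok.δ0.le hk (H := H) (C := C) p (by
    filter_upwards [k1, r1, s3, hτ.eventually hF] with i a1 a2 a3 a4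
    exact ⟨a1.1, a1.2.1, a1.2.2, a2, (a4 _ _ a2).cast (by have := hW.dim; omega), (a3 _ a2).1,
      fun v hv => (a3 _ a2).2 v (hv.trans e3)⟩) H0.low H0.zero
  refine ⟨min b (b / (2 * C' * C')), lt_min b0 (by positivity), fun i => 2 * C' * ‖H i 0‖,
    by simpa using z.const_mul (2 * C'), ?_⟩
  filter_upwards [k1, r1, hN, ha, hτ.eventually (s1.and (s2.and hG.boot))]
    with i a1 a2 a3 a4 ⟨a5, ⟨o, Θ, j, a6⟩, a7⟩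
  exact gd hW.ok.ok hW.ok.mem wa hD hn a4 hW.ok.δ0.le hk c0 b1 e1 e2 a1.1 a1.2.1 a1.2.2 a2 a3.1 a3.2
    (a7 _ _ a2) a5 a6

end Dat
end Crest.Agent.X212.Gj67
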