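import Crest.Agent.X212.Neck67.Bd
import Crest.Agent.X212.Nk89.Wt
import Crest.Agent.X212.Sob92.Iso
import Crest.Agent.X212.Sob92.Fun

/-!
# Row 212, GL (helper67): weighted local norms of functions, weight profiles

`J F k u x` = sum of the squares of the derivatives of order `≤ k`; `N F g A k u = ∫⁻_A e^{2g} J`.
-/

set_option autoImplicit false
set_option linter.unusedSectionVars false
noncomputable section
open scoped Manifold ContDiff Topology ENNReal NNReal
open MeasureTheory Set Function Filter Real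

namespace Crest.Agent.X212.Gl67
open An Sob92

variable {E : Type} [NormedAddCommGroup E] [NormedSpace ℝ E] [FiniteDimensional ℝ E]
  [MeasurableSpace E] [BorelSpace E]
  {HM : Type} [TopologicalSpace HM] {I : ModelWithCorners ℝ E HM}
  {M : Type} [TopologicalSpace M] [ChartedSpace HM M] [IsManifold I ∞ M]
  [MeasurableSpace M] [T2Space M] [BorelSpace M] {ι : Type} [Fintype ι]
  {E' : Type} [NormedAddCommGroup E'] [NormedSpace ℝ E'] [FiniteDimensional ℝ E']
  [MeasurableSpace E'] [BorelSpace E']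
  {HM' : Type} [TopologicalSpace HM'] {I' : ModelWithCorners ℝ E' HM'}
  {M' : Type} [TopologicalSpace M'] [ChartedSpace HM' M'] [IsManifold I' ∞ M']
  [MeasurableSpace M'] [T2Space M'] [BorelSpace M']
  {V : Type} [NormedAddCommGroup V] [NormedSpace ℝ V]

/-- the density of the `L²_k` norm -/
def J (F : Pre I M ι) : ℕ → (M → V) → M → ℝ
  | 0, u, x => ‖u x‖ ^ 2
  | k + 1, u, x => ‖u x‖ ^ 2 + ∑ a, J F k (F.D a u) x

variable (I) in
/-- smooth at the points of `O` -/
def SmO (O : Set M) (u : M → V) : Prop := ∀ x ∈ O, ContMDiffAt I 𝓘(ℝ, V) ∞ u x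

variable {F : Pre I M ι} {F' : Pre I' M' ι} {φ : OpenPartialHomeomorph M M'} {k : ℕ}
  {u v : M → V} {x : M} {O A B : Set M} {g g' : M → ℝ}

theorem smO (h : Sm I u) : SmO I O u := fun x _ => h x

theorem SmO.D (h : SmO I O u) (a : ι) : SmO I O (F.D a u) :=
  fun x hx => dv_smoothAt (F.sm a x) (h x hx)

theorem SmO.sub (h : SmO I O u) (h' : SmO I O v) : SmO I O (u - v) :=
  fun x hx => (h x hx).sub (h' x hx)

theorem SmO.comp (h : Iso F F' φ) {w : M' → V} (hw : Sm I' w) : SmO I φ.source (w ∘ φ) :=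
  fun _ hx => (hw _).comp _ (iso_smAt h hx)

theorem J_nonneg : ∀ (k : ℕ) (u : M → V), 0 ≤ J F k u x
  | 0, _ => sq_nonneg _
  | k + 1, _ => add_nonneg (sq_nonneg _) (Finset.sum_nonneg fun _ _ => J_nonneg k _)

theorem J_congr : ∀ {k : ℕ} {u v : M → V}, u =ᶠ[𝓝 x] v → J F k u x = J F k v x
  | 0, _, _, h => by simp only [J, h.self_of_nhds]
  | _ + 1, _, _, h => congrArg₂ (· + ·) (by rw [h.self_of_nhds]) (Finset.sum_congr rfl fun _ _ =>
      J_congr (h.eventuallyEq_nhds.mono fun _ hy => dv_congr hy))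

theorem J_off : ∀ {k : ℕ} {u : M → V}, x ∉ tsupport u → J F k u x = 0
  | 0, _, h => by simp [J, image_eq_zero_of_notMem_tsupport h]
  | k + 1, u, h => by
    have : ∀ a, J F k (F.D a u) x = 0 := fun a => J_off fun h' => h (F.tsupport_D u a h')
    simp [J, image_eq_zero_of_notMem_tsupport h, this]

theorem J_neg : ∀ (k : ℕ) (u : M → V), J F k (-u) x = J F k u x
  | 0, _ => by simp [J]
  | k + 1, u => by
    have : ∀ a, F.D a (-u) = -F.D a u := fun a => funext fun y => dv_neg u y
    simp [J, this, J_neg k]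

theorem J_succ : ∀ (k : ℕ) (u : M → V), J F k u x ≤ J F (k + 1) u x
  | 0, _ => le_add_of_nonneg_right (Finset.sum_nonneg fun _ _ => J_nonneg 0 _)
  | k + 1, _ => add_le_add le_rfl (Finset.sum_le_sum fun _ _ => J_succ k _)

theorem sq_add_le (a b : V) : ‖a + b‖ ^ 2 ≤ 2 * ‖a‖ ^ 2 + 2 * ‖b‖ ^ 2 := by
  nlinarith [norm_add_le a b, norm_nonneg (a + b), sq_nonneg (‖a‖ - ‖b‖), norm_nonneg a,
    norm_nonneg b]

theorem J_add (hO : IsOpen O) (hx : x ∈ O) : ∀ (k : ℕ) {u v : M → V}, SmO I O u → SmO I O v →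
    J F k (u + v) x ≤ 2 * J F k u x + 2 * J F k v x
  | 0, _, _, _, _ => sq_add_le _ _
  | k + 1, u, v, hu, hv => by
    have h1 : ∀ a, J F k (F.D a (u + v)) x ≤ 2 * J F k (F.D a u) x + 2 * J F k (F.D a v) x :=
      fun a => (J_congr (Eventually.mono (hO.mem_nhds hx) fun y hy => dv_add
        ((hu y hy).mdifferentiableAt (by simp)) ((hv y hy).mdifferentiableAt (by simp)))).trans_le
        (J_add hO hx k (hu.D a) (hv.D a))
    have h2 := Finset.sum_le_sum fun a (_ : a ∈ Finset.univ) => h1 a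
    rw [Finset.sum_add_distrib, ← Finset.mul_sum, ← Finset.mul_sum] at h2
    have := sq_add_le (u x) (v x)
    simp only [J, Pi.add_apply]
    linarith

theorem J_smul {C : ℝ} : ∀ (k : ℕ) {f : M → ℝ} {u : M → V}, Sm I f → F.CB k f C → Sm I u →
    J F k (fun y => f y • u y) x ≤ (2 * Fintype.card ι + 3) ^ k * C ^ 2 * J F k u x := by
  have h0 : ∀ {k} {f : M → ℝ} {u : M → V}, F.CB k f C → ‖f x • u x‖ ^ 2 ≤ C ^ 2 * ‖u x‖ ^ 2 :=
    fun h => by
    rw [norm_smul, mul_pow]
    exact mul_le_mul_of_nonneg_right (pow_le_pow_left₀ (norm_nonneg _) (CB_bound h x) 2)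
      (sq_nonneg _)
  intro k
  induction k with
  | zero => intro f u _ h _; simpa [J] using h0 h
  | succ k ih =>
    intro f u hf h hu
    set c := (2 * (Fintype.card ι : ℝ) + 3) ^ k * C ^ 2
    have c1 : C ^ 2 ≤ c := le_mul_of_one_le_left (sq_nonneg C)
      (one_le_pow₀ (by linarith [Nat.cast_nonneg (α := ℝ) (Fintype.card ι)]))
    have c0 : 0 ≤ c := (sq_nonneg C).trans c1
    have h1 : ∀ a, J F k (F.D a fun y => f y • u y) x ≤
        2 * (c * J F k (F.D a u) x) + 2 * (c * J F (k + 1) u x) := fun a => by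
      have e : (F.D a fun y => f y • u y) = (fun y => f y • F.D a u y) + fun y => F.D a f y • u y :=
        funext fun y => (dv_smul (hf.mdifferentiableAt (by simp))
          (hu.mdifferentiableAt (by simp))).trans (add_comm _ _)
      rw [e]
      exact (J_add isOpen_univ (mem_univ x) k (smO (hf.smul (F.sm_D hu a)))
        (smO ((F.sm_D hf a).smul hu))).trans (add_le_add
        (mul_le_mul_of_nonneg_left (ih hf (CB_of_le h k.le_succ) (F.sm_D hu a)) zero_le_two)
        (mul_le_mul_of_nonneg_left ((ih (F.sm_D hf a) (CB_D h a) hu).trans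
          (mul_le_mul_of_nonneg_left (J_succ k u) c0)) zero_le_two))
    have h2 := Finset.sum_le_sum fun a (_ : a ∈ Finset.univ) => h1 a
    rw [Finset.sum_add_distrib, ← Finset.mul_sum, ← Finset.mul_sum, Finset.sum_const, nsmul_eq_mul,
      Finset.card_univ] at h2
    have h3 : 0 ≤ ∑ a, J F k (F.D a u) x := Finset.sum_nonneg fun _ _ => J_nonneg k _
    have h4 := (h0 (u := u) h).trans (mul_le_mul_of_nonneg_right c1 (sq_nonneg _))
    rw [pow_succ, mul_right_comm _ _ (C ^ 2)]
    simp only [J] at h2 ⊢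
    nlinarith [mul_nonneg c0 h3, mul_nonneg c0 (sq_nonneg ‖u x‖)]

theorem J_cont : ∀ (k : ℕ) {u : M → V}, SmO I O u → ∀ x ∈ O, ContinuousAt (J F k u) x
  | 0, _, h, x, hx => (h x hx).continuousAt.norm.pow 2
  | k + 1, _, h, x, hx => ((h x hx).continuousAt.norm.pow 2).add
      (tendsto_finsetSum _ fun a _ => J_cont k (h.D a) x hx)

theorem J_iso (h : Iso F F' φ) (hx : x ∈ φ.source) : ∀ (k : ℕ) {w : M' → V}, Sm I' w →
    J F k (w ∘ φ) x = J F' k w (φ x)
  | 0, _, _ => rfl
  | k + 1, _, hw => congrArg₂ (· + ·) rfl (Finset.sum_congr rfl fun a _ =>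
      (J_congr (v := F'.D a _ ∘ φ) (Eventually.mono (φ.open_source.mem_nhds hx) fun _ hy =>
        iso_D_comp h hy (hw.mdifferentiableAt (by simp)) a)).trans (J_iso h hx k (F'.sm_D hw a)))

theorem J_int {μ : Measure M} : ∀ (k : ℕ) {u : M → V}, ML I F.e μ k u →
    Integrable (J F k u) μ ∧ ∫ x, J F k u x ∂μ = n2 I F.e μ k u
  | 0, _, h => ⟨int_sq h, rfl⟩
  | k + 1, u, h => by
    have h1 := integrable_finsetSum Finset.univ fun a _ => (J_int k (h.2 a)).1
    refine ⟨(int_sq h.1).add h1, (integral_add (int_sq h.1) h1).trans ?_⟩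
    rw [integral_finsetSum _ fun a _ => (J_int k (h.2 a)).1]
    exact congrArg₂ (· + ·) rfl (Finset.sum_congr rfl fun a _ => (J_int k (h.2 a)).2)

/-- the squared weighted norm over `A` -/
def N (F : Pre I M ι) (g : M → ℝ) (A : Set M) (k : ℕ) (u : M → V) : ℝ≥0∞ :=
  ∫⁻ x in A, ENNReal.ofReal (exp (2 * g x) * J F k u x) ∂F.μ

theorem N_le {W : Type} [NormedAddCommGroup W] [NormedSpace ℝ W] {j : ℕ} {v : M → W} {c : ℝ}
    (hA : MeasurableSet A) (hc : 0 ≤ c)
    (h : ∀ x ∈ A, exp (2 * g x) * J F k u x ≤ c * (exp (2 * g' x) * J F j v x)) :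
    N F g A k u ≤ ENNReal.ofReal c * N F g' A j v := by
  rw [N, N, ← lintegral_const_mul' _ _ ENNReal.ofReal_ne_top]
  exact setLIntegral_mono' hA fun x hx =>
    (ENNReal.ofReal_le_ofReal (h x hx)).trans_eq (ENNReal.ofReal_mul hc)

theorem N_mono (h : A ⊆ B) : N F g A k u ≤ N F g B k u := lintegral_mono_set h

theorem N_wt (hA : MeasurableSet A) {c : ℝ} (h : ∀ x ∈ A, g x ≤ g' x + c) :
    N F g A k u ≤ ENNReal.ofReal (exp (2 * c)) * N F g' A k u :=
  N_le hA (exp_pos _).le fun x hx => by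
    rw [← mul_assoc, ← exp_add]
    exact mul_le_mul_of_nonneg_right (exp_le_exp.2 (by linarith [h x hx])) (J_nonneg k u)

theorem N_wt' (hA : MeasurableSet A) (h : ∀ x ∈ A, g x ≤ g' x) : N F g A k u ≤ N F g' A k u := by
  simpa using N_wt (c := 0) hA (by simpa using h)

theorem N_congr (hA : MeasurableSet A) (h : ∀ x ∈ A, u =ᶠ[𝓝 x] v) : N F g A k u = N F g A k v :=
  setLIntegral_congr_fun hA fun x hx => by simp only [J_congr (h x hx)]

theorem N_union : N F g (A ∪ B) k u ≤ N F g A k u + N F g B k u := lintegral_union_le _ _ _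

theorem N_supp (h : tsupport u ⊆ A) : N F g univ k u = N F g A k u := by
  rw [N, Measure.restrict_univ]
  exact (setLIntegral_eq_of_support_subset fun x hx => h (by_contra fun h' => hx (by
    simp [J_off h']))).symm

theorem N_zero : N F g A k (0 : M → V) = 0 := by
  simp [N, fun x => J_off (F := F) (k := k) (u := (0 : M → V)) (x := x) (by simp)]

theorem N_neg : N F g A k (-u) = N F g A k u := by simp only [N, J_neg]

theorem N_sub_comm : N F g A k (u - v) = N F g A k (v - u) := by rw [← N_neg, neg_sub]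

theorem N_add (hO : IsOpen O) (hA : MeasurableSet A) (h : A ⊆ O) (hg : Continuous g)
    (hu : SmO I O u) (hv : SmO I O v) : N F g A k (u + v) ≤ 2 * N F g A k u + 2 * N F g A k v := by
  have m : AEMeasurable (fun x => 2 * ENNReal.ofReal (exp (2 * g x) * J F k u x))
      (F.μ.restrict A) := (ContinuousOn.aemeasurable (fun x hx =>
        (((continuous_const.mul hg).rexp.continuousAt).mul
          (J_cont k hu x (h hx))).continuousWithinAt) hA).ennreal_ofReal.const_mul 2
  rw [N, N, N, ← lintegral_const_mul' _ _ (by simp), ← lintegral_const_mul' _ _ (by simp),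
    ← lintegral_add_left' m]
  refine setLIntegral_mono' hA fun x hx => ?_
  have e := (exp_pos (2 * g x)).le
  rw [← ENNReal.ofReal_ofNat, ← ENNReal.ofReal_mul zero_le_two, ← ENNReal.ofReal_mul zero_le_two,
    ← ENNReal.ofReal_add (by have := J_nonneg (F := F) (x := x) k u; positivity)
      (by have := J_nonneg (F := F) (x := x) k v; positivity)]
  exact ENNReal.ofReal_le_ofReal ((mul_le_mul_of_nonneg_left (J_add hO (h hx) k hu hv) e).trans_eq
    (by ring))

theorem N_tri (hO : IsOpen O) (hA : MeasurableSet A) (h : A ⊆ O) (hg : Continuous g)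
    (hu : SmO I O u) (hv : SmO I O v) : N F g A k u ≤ 2 * N F g A k (u - v) + 2 * N F g A k v := by
  simpa using N_add (k := k) (F := F) hO hA h hg (hu.sub hv) hv

theorem N_smul (hA : MeasurableSet A) {f : M → ℝ} {C : ℝ} (hf : Sm I f) (h : F.CB k f C)
    (hu : Sm I u) : N F g A k (fun y => f y • u y) ≤
      ENNReal.ofReal ((2 * Fintype.card ι + 3) ^ k * C ^ 2) * N F g A k u :=
  N_le hA (by positivity) fun x _ => (mul_le_mul_of_nonneg_left (J_smul k hf h hu)
    (exp_pos _).le).trans_eq (by ring)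

theorem N_iso (h : Iso F F' φ) {g' : M' → ℝ} (hg : Continuous g') {A' : Set M'}
    (hA : MeasurableSet A) (hA' : MeasurableSet A') (s : A ⊆ φ.source) (t : A' ⊆ φ.target)
    (e : ∀ x ∈ φ.source, x ∈ A ↔ φ x ∈ A') (eg : ∀ x ∈ A, g x = g' (φ x)) {w : M' → V}
    (hw : Sm I' w) : N F g A k (w ∘ φ) = N F' g' A' k w := by
  have ms := φ.open_source.measurableSet
  have m : Measurable fun y => ENNReal.ofReal (exp (2 * g' y) * J F' k w y) :=
    ((continuous_const.mul hg).rexp.mul (continuous_iff_continuousAt.2 fun y =>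
      J_cont k (smO hw) y (mem_univ y))).measurable.ennreal_ofReal
  rw [N, N, ← inter_eq_left.2 t, ← Measure.restrict_restrict hA', ← h.μ, ← lintegral_indicator hA',
    lintegral_map' (m.indicator hA').aemeasurable (φ.continuousOn.aemeasurable ms),
    ← inter_eq_left.2 s, ← Measure.restrict_restrict hA, ← lintegral_indicator hA]
  refine setLIntegral_congr_fun ms fun x hx => ?_
  by_cases hx' : x ∈ A
  · simp only [indicator_of_mem hx', indicator_of_mem ((e x hx).1 hx'), eg x hx', J_iso h hx k hw]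
  · simp only [indicator_of_notMem hx', indicator_of_notMem (mt (e x hx).2 hx')]

/-- pigeonhole -/
theorem N_pigeon {n : ℕ} (hn : 0 < n) {A : ℕ → Set M} (hA : ∀ j, MeasurableSet (A j))
    (hd : Pairwise (Disjoint on A)) : ∃ j < n, n * N F g (A j) k u ≤ N F g univ k u := by
  obtain ⟨j, h1, h2⟩ := (Finset.range n).exists_min_image (fun j => N F g (A j) k u)
    ⟨0, Finset.mem_range.2 hn⟩
  refine ⟨j, Finset.mem_range.1 h1, ?_⟩
  have h3 := Finset.card_nsmul_le_sum _ _ _ h2
  rw [Finset.card_range, nsmul_eq_mul] at h3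
  refine h3.trans ((lintegral_biUnion_finset (fun i _ j _ e => hd e) (fun j _ => hA j) _).symm.trans_le
    (N_mono (subset_univ _)))

/-- comparison with the Sobolev norm of the weighted frame -/
theorem N_eq [I.Boundaryless] {F' : Pre I M ι} (h : Nk89.WtP F F' g) (hu : FL F' k u) :
    N F g univ k u = ENNReal.ofReal (N2 F' k u) := by
  have e : ∀ (k : ℕ) (u : M → V), J F' k u = J F k u := fun k => by
    induction k with
    | zero => exact fun _ => rfl
    | succ k ih => exact fun u => funext fun x => by simp only [J, h.D, ih]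
  obtain ⟨h1, h2⟩ := J_int (F := F') k hu
  rw [N2, ← h2, ofReal_integral_eq_lintegral_ofReal h1 (.of_forall fun _ => J_nonneg k u), h.μ,
    Nk89.wm, lintegral_withDensity_eq_lintegral_mul_non_measurable _ (Nk89.meas_w h.sm.continuous)
      (.of_forall fun _ => ENNReal.ofReal_lt_top), N, Measure.restrict_univ, e]
  exact lintegral_congr fun x => ENNReal.ofReal_mul (exp_pos _).le

/-! ### functions of a height -/

/-- the constant for composing with a height -/
def cT (C : ℝ) : ℕ → ℝ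
  | 0 => 1
  | k + 1 => max 1 (2 ^ (k + 1) * cT C k * |C|)

theorem one_le_cT (C : ℝ) : ∀ k, 1 ≤ cT C k
  | 0 => le_rfl
  | _ + 1 => le_max_left _ _

theorem D_comp {h : M → ℝ} (hh : Sm I h) {b : ℝ → ℝ} (hb : ContDiff ℝ ∞ b) (a : ι) (x : M) :
    F.D a (fun x => b (h x)) x = deriv b (h x) * F.D a h x := by
  rw [Pre.D_def, dv_comp (hh.mdifferentiableAt (by simp))
    (Neck67.cd_diff hb _).hasDerivAt.hasFDerivAt]
  simp [Pre.D_def, mul_comm]

theorem CB_comp {h : M → ℝ} (hh : Sm I h) {C : ℝ} (hC : ∀ a, F.CB k (F.D a h) C) {b : ℝ → ℝ}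
    (hb : ContDiff ℝ ∞ b) {A : ℝ} (hA : Neck67.Bd k b A) :
    F.CB k (fun x => b (h x)) (cT C k * A) := by
  induction k generalizing b with
  | zero => exact CB_zero.2 fun x => by simpa [cT] using hA (h x)
  | succ k ih =>
    have h0 := hA.nonneg
    refine CB_succ.2 ⟨fun x => (hA.1 _).trans (le_mul_of_one_le_left h0 (one_le_cT _ _)),
      fun a => ?_⟩
    rw [show F.D a (fun x => b (h x)) = fun x => ContinuousLinearMap.mul ℝ ℝ (deriv b (h x))
      (F.D a h x) from funext fun x => D_comp hh hb a x]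
    have h1 := one_le_cT C k
    refine CB_mono (CB_bil (ContinuousLinearMap.mul ℝ ℝ) ((Neck67.cd_deriv hb).contMDiff.comp hh)
      (F.sm_D hh a) (ih (fun a => CB_of_le (hC a) k.le_succ) (Neck67.cd_deriv hb) hA.2)
      (CB_of_le (hC a) k.le_succ)) ?_
    rw [abs_of_nonneg (by positivity : 0 ≤ cT C k * A)]
    have h2 := ContinuousLinearMap.opNorm_mul_le ℝ ℝ
    calc _ ≤ 2 ^ (k + 1) * 1 * (cT C k * A) * |C| := by gcongr
      _ = 2 ^ (k + 1) * cT C k * |C| * A := by ring
      _ ≤ _ := mul_le_mul_of_nonneg_right (le_max_right _ _) h0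

/-- `0` on `(-∞, 0]`, slope `1` on `[1, ∞)` -/
def ka (s : ℝ) : ℝ := ∫ t in (0 : ℝ)..s, smoothTransition t

theorem ka_deriv (s : ℝ) : HasDerivAt ka (smoothTransition s) s :=
  (smoothTransition.continuous.integral_hasStrictDerivAt 0 s).hasDerivAt

theorem cd_ka : ContDiff ℝ ∞ ka := contDiff_infty_iff_deriv.2 ⟨fun s => (ka_deriv s).differentiableAt,
  by rw [show deriv ka = smoothTransition from funext fun s => (ka_deriv s).deriv]
     exact smoothTransition.contDiff⟩

theorem ka_sub (s t : ℝ) : ka s - ka t = ∫ x in t..s, smoothTransition x :=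
  intervalIntegral.integral_interval_sub_left (smoothTransition.continuous.intervalIntegrable _ _)
    (smoothTransition.continuous.intervalIntegrable _ _)

theorem ka_mono {s t : ℝ} (h : t ≤ s) : ka t ≤ ka s := sub_nonneg.1 (by
  rw [ka_sub]; exact intervalIntegral.integral_nonneg h fun x _ => smoothTransition.nonneg x)

theorem ka_lip {s t : ℝ} (h : t ≤ s) : ka s - ka t ≤ s - t := by
  simpa [ka_sub] using intervalIntegral.integral_mono_on h
    (smoothTransition.continuous.intervalIntegrable (μ := volume) _ _)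
    (continuous_const.intervalIntegrable _ _) fun x _ => smoothTransition.le_one x

theorem ka_lin {s t : ℝ} (h1 : 1 ≤ t) (h : t ≤ s) : ka s - ka t = s - t := by
  rw [ka_sub, intervalIntegral.integral_congr (g := fun _ => (1 : ℝ)) fun x hx =>
    smoothTransition.one_of_one_le (h1.trans (uIcc_of_le h ▸ hx).1)]
  simp

theorem ka_zero {s : ℝ} (h : s ≤ 0) : ka s = 0 := by
  rw [ka, intervalIntegral.integral_congr (g := fun _ => (0 : ℝ)) fun x hx =>
    smoothTransition.zero_of_nonpos (uIcc_of_ge h ▸ hx).2]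
  simp

theorem ka_nonneg (s : ℝ) : 0 ≤ ka s :=
  (ka_zero (min_le_right s 0)).symm.trans_le (ka_mono (min_le_left s 0))

/-- the weight profiles, for `0 ≤ x`, `0 ≤ y ≤ z` -/
def pr (δ x y z s : ℝ) : ℝ := δ * (ka (s - x) + ka (s - y) - ka (s - z))

/-- the basic profile -/
abbrev g0 (δ : ℝ) : ℝ → ℝ := pr δ 0 0 0

theorem g0_eq (δ s : ℝ) : g0 δ s = δ * ka s := by simp [pr]

variable {δ a b c s : ℝ}

theorem pr_deriv (s : ℝ) : HasDerivAt (pr δ a b c)
    (δ * (smoothTransition (s - a) + smoothTransition (s - b) - smoothTransition (s - c))) s :=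
  ((((ka_deriv _).comp_sub_const s a).add ((ka_deriv _).comp_sub_const s b)).sub
    ((ka_deriv _).comp_sub_const s c)).const_mul δ

theorem cd_pr : ContDiff ℝ ∞ (pr δ a b c) := by
  have := cd_ka
  unfold pr; fun_prop

theorem pr_nonneg (hδ : 0 ≤ δ) (h : b ≤ c) : 0 ≤ pr δ a b c s :=
  mul_nonneg hδ (by linarith [ka_nonneg (s - a), ka_mono (sub_le_sub_left h s)])

theorem pr_le (hδ : 0 ≤ δ) (ha : 0 ≤ a) (hb : 0 ≤ b) : pr δ a b c s ≤ 2 * δ * ka s := by
  have := mul_le_mul_of_nonneg_left (show ka (s - a) + ka (s - b) - ka (s - c) ≤ 2 * ka s by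
    linarith [ka_nonneg (s - c), ka_mono (sub_le_self s ha), ka_mono (sub_le_self s hb)]) hδ
  rw [pr]; linarith

theorem abs_pr_deriv (hδ : 0 ≤ δ) : |deriv (pr δ a b c) s| ≤ 2 * δ := by
  rw [(pr_deriv s).deriv, abs_mul, abs_of_nonneg hδ, mul_comm]
  refine mul_le_mul_of_nonneg_right (abs_le.2 ⟨?_, ?_⟩) hδ <;>
    linarith [smoothTransition.nonneg (s - a), smoothTransition.nonneg (s - b),
      smoothTransition.nonneg (s - c), smoothTransition.le_one (s - a),
      smoothTransition.le_one (s - b), smoothTransition.le_one (s - c)]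

theorem bd_st (k : ℕ) (a : ℝ) : Neck67.Bd k (fun s => smoothTransition (s - a)) (Neck67.cS k) := by
  simpa [sub_eq_add_neg] using (Neck67.bd_step k).of_succ.aff (a := 1) (by simp) (-a)

theorem cd_st (a : ℝ) : ContDiff ℝ ∞ fun s => smoothTransition (s - a) :=
  smoothTransition.contDiff.comp (contDiff_id.sub contDiff_const)

theorem bd_pr (k : ℕ) : Neck67.Bd k (deriv (pr δ a b c)) (|δ| * (3 * Neck67.cS k)) := by
  rw [show deriv (pr δ a b c) = δ • ((fun s => smoothTransition (s - a)) +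
    (fun s => smoothTransition (s - b)) - fun s => smoothTransition (s - c)) from
      funext fun s => (pr_deriv s).deriv]
  exact ((((bd_st k a).add (cd_st a) (cd_st b) (bd_st k b)).sub ((cd_st a).add (cd_st b)) (cd_st c)
    (bd_st k c)).mono (by linarith)).smul δ

/-- the weights have uniformly bounded logarithmic derivatives -/
theorem CBs_pr {h : M → ℝ} (hh : Sm I h) {C : ℕ → ℝ} (hC : ∀ i, F.CBs (F.D i h) C) (i : ι) :
    F.CBs (F.D i fun x => pr δ a b c (h x))
      fun k => 2 ^ (k + 1) * |cT (C k) k * (|δ| * (3 * Neck67.cS k))| * |C k| := by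
  rw [show F.D i (fun x => pr δ a b c (h x)) = fun x => ContinuousLinearMap.mul ℝ ℝ
    (deriv (pr δ a b c) (h x)) (F.D i h x) from funext fun x => D_comp hh cd_pr i x]
  have h1 : Sm I fun x => deriv (pr δ a b c) (h x) := (Neck67.cd_deriv cd_pr).contMDiff.comp hh
  refine ⟨h1.mul (hC i).1, fun k => CB_mono (CB_bil _ h1 (hC i).1
    (CB_comp hh (fun a => (hC a).2 k) (Neck67.cd_deriv cd_pr) (bd_pr k)) ((hC i).2 k)) ?_⟩
  have h2 := ContinuousLinearMap.opNorm_mul_le ℝ ℝ
  calc _ ≤ 2 ^ (k + 1) * 1 * |cT (C k) k * (|δ| * (3 * Neck67.cS k))| * |C k| := by gcongr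
    _ = _ := by ring

end Crest.Agent.X212.Gl67
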