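import Crest.Agent.X212.Gl67.Defs
import Crest.Agent.X212.Cht98.Jb
import Crest.Agent.X212.An.Str
import Crest.Agent.X212.M.Nrm
import Crest.Agent.X212.Ink3.Main

/-!
# Row 212, GL (helper67), layer 3: the gluing problem of a job

`d : Dat J σ a U Up R` is a normalised face object with the limit on the cylinder and the rows.
Sides: `d.S` on `Z (cf a)`, `d.Xs τ` on `Z c0` (neck parameter `τ`), `d.Z τ` on the cylinder.
-/

set_option autoImplicit false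
set_option linter.unusedSectionVars false
noncomputable section
open scoped Manifold ContDiff Topology InnerProductSpace ENNReal NNReal
open MeasureTheory Set Function Filter

namespace Crest.Agent.X212.Gj67
open An An.Job M Nd18 Mod61 Prm93
open Gl67 (Sid Cm Eqn PP ka g0 q2 cd_ka)
open Map77 (Cf)
open Cyf70 (IC)

/-! ### weak limits -/

section gen
variable {E : Type} [NormedAddCommGroup E] [NormedSpace ℝ E] [FiniteDimensional ℝ E]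
  [MeasurableSpace E] [BorelSpace E]
  {HM : Type} [TopologicalSpace HM] {I : ModelWithCorners ℝ E HM}
  {M : Type} [TopologicalSpace M] [ChartedSpace HM M] [IsManifold I ∞ M]
  [MeasurableSpace M] {ι : Type} [Fintype ι] {lam : Type} [Fintype lam] {r : ℕ}

variable (I) in
/-- locally uniform convergence (`ULim` without derivatives) -/
structure WLim (B : Base M ι lam) {α : Type} (l : Filter α)
    (e : α → ι → Π x : M, TangentSpace I x) (c : α → Cfg M ι lam r) (c₀ : Cfg M ι lam r)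
    (u : ∀ i, M → CL (c i).m.V c₀.m.V) (ζ : α → Circle) : Prop where
  m : ∀ x, ∃ N, IsOpen N ∧ x ∈ N ∧
    ∀ᶠ i in l, MEq I (c i).m c₀.m N id (fun x b a => B.P b a x) B.l (u i)
  A : ∀ a x, Tendsto (fun p : α × M => (Sob92.dv I (e p.1 a) (u p.1) p.2 + c₀.W a p.2 ∘L u p.1 p.2 -
    u p.1 p.2 ∘L (c p.1).W a p.2) ∘L trn (u p.1 p.2)) (l ×ˢ 𝓝 x) (𝓝 0)
  Φ : ∀ x, Tendsto (fun p : α × M => cs c₀.m.J (ζ p.1) (u p.1 p.2 ((c p.1).Φ p.2))) (l ×ˢ 𝓝 x)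
    (𝓝 (c₀.Φ x))
  z : Tendsto (fun i => ((ζ i : ℂ) ^ 2) • (c i).z) l (𝓝 c₀.z)

variable {T N : Type} [NormedAddCommGroup T] [NormedSpace ℝ T] [NormedAddCommGroup N]
  [NormedSpace ℝ N]

/-- explicit bounds for all derivatives of a family on a ball -/
def UBn (F : Pre I M ι) (r : ℝ) (C : ℕ → ℝ) (f : T → M → N) : Prop :=
  ∀ k n, ∀ t ∈ Metric.closedBall (0 : T) r,
    ‖iteratedFDeriv ℝ n (fun t => toB F k (f t)) t‖ ≤ C (k + n)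

/-- explicit bounds for a family of backgrounds -/
structure FU (𝔉 : Mod61.Fam I M ι lam T) (r : ℝ) (C : ℕ → ℝ) : Prop where
  sub : Metric.closedBall 0 r ⊆ 𝔉.Q
  t0 : 𝔉.F0.Tame C
  tG : ∀ t ∈ Metric.closedBall (0 : T) r, (𝔉.G t).F.Tame C
  o : ∀ a b c d, 𝔉.F0.CBs (𝔉.B.o a b c d) C
  l : 𝔉.F0.CBs 𝔉.B.l C
  S : ∀ a b, UBn 𝔉.F0.toPre r C fun t x => 𝔉.S t x a b
  Si : ∀ a b, UBn 𝔉.F0.toPre r C fun t x => 𝔉.Si t x a b
  cf : ∀ a b k, UBn 𝔉.F0.toPre r C fun t x => 𝔉.cf t x a b k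
  la : ∀ a, UBn 𝔉.F0.toPre r C fun t x => 𝔉.la t x a
  c : ∀ a b k, UBn 𝔉.F0.toPre r C fun t => (𝔉.G t).F.c a b k
  dv : ∀ a, UBn 𝔉.F0.toPre r C fun t => (𝔉.G t).F.dv a
  a : ∀ a, UBn 𝔉.F0.toPre r C fun t => (𝔉.G t).a a
  μ : ∃ g : T → M → ℝ, SB 𝔉.F0.toPre 𝔉.Q g ∧ UBn 𝔉.F0.toPre r C g ∧ ∀ t ∈ 𝔉.Q,
    (𝔉.G t).F.μ = 𝔉.F0.μ.withDensity fun x => ENNReal.ofReal (Real.exp (g t x))

end gen

/-- `|u|` for `1 ≤ |u|` -/
def rho (u : ℝ) : ℝ := ka u + ka (-u) + (1 - ka 1)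

theorem cd_rho : ContDiff ℝ ∞ rho :=
  (cd_ka.add (cd_ka.comp contDiff_neg)).add contDiff_const

/-- the tent over a neck of length `nl τ` -/
def tent (R τ u : ℝ) : ℝ := ka (nl τ / 2 - R - rho u)

theorem cd_tent (R τ : ℝ) : ContDiff ℝ ∞ (tent R τ) := cd_ka.comp (contDiff_const.sub cd_rho)

variable {Wi : Type} {X : Mf 4} {A κ lam : Type} [Fintype A] [Fintype κ] [Fintype lam]
  [DecidableEq lam] {M : Mark X A κ} {W : World M} {L : ML M lam} {Λ : Lns W L}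
  {A' h : Type} [Fintype A'] [DecidableEq A'] [Fintype h] {r n : ℕ}
  {J : Job Wi Λ A' h r n} {σ : Cel A'} {a : A'}

/-- weak degeneration -/
structure Wd {c : M.Cl} {α : Type} (l : Filter α) (y : α → J.Obc M.c0) (y₀ : J.Obc c) : Prop where
  s : Tendsto (fun i => (y i).s) l (𝓝 y₀.s)
  lim : ∃ u ζ, WLim (W.Z c).I (J.B c) l (fun i => J.fu c (y i).s)
      (fun i => pb (up c) (y i).x) y₀.x u ζ ∧
    ∀ k, CLim (N := fun i => (y i).x.m.N) l y₀.x.m.J (fun i => u i (J.cut c k).x0)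
      (fun i => (y i).ψ k) (y₀.ψ k)

/-- **the degeneration relation of a kit** -/
def GDeg (D : J.Mdl) (σ : Cel A') (a : A') (α : Type) (𝒰 : Ultrafilter α) (u : α → (D.Q σ).X)
    (y : J.Obc (J.cf a)) : Prop :=
  y.s a = 1 ∧ (∀ a' ∈ J.wa σ, a' ≠ a → y.s a' < 1) ∧ ∃ u' : α → (D.Q σ).X,
    (∀ᶠ i in (𝒰 : Filter α), (D.Q σ).In (u i) ∧ (D.Q σ).eqv (u i) (u' i)) ∧
      Wd 𝒰 (fun i => D.ob (u' i)) y

/-- the other free coordinates -/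
abbrev Tc (σ : Cel A') (a : A') : Type := {a' // σ a' = none ∧ a' ≠ a} → ℝ

/-- the parameter with `a`-coordinate `τ` -/
def ee (s : A' → ℝ) (τ : ℝ) (t : Tc σ a) (a' : A') : ℝ :=
  if h : σ a' = none ∧ a' ≠ a then s a' + t ⟨a', h⟩ else if a' = a then τ else s a'

variable (J) in
/-- the equations of the job -/
def eqX (c : M.Cl) (q : Wi →₀ ℝ) (s : A' → ℝ) :
    PtX (W.Z c).M (Option κ) (lam ⊕ lam) r n (min r 1) where
  D x := x.eD (J.G c s) (J.τ c q s)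
  C x := x.eC (J.B c) (J.G c s) (J.τ c q s)
  S := (J.τ c q s).S
  R x _ := ‖x.z‖ ^ 2 - 1

/-- the data of a gluing problem -/
structure Dat (J : Job Wi Λ A' h r n) (σ : Cel A') (a : A') (U Up R : Type) [NormedAddCommGroup U] [NormedSpace ℝ U] [NormedAddCommGroup Up]
    [NormedSpace ℝ Up] [NormedAddCommGroup R] [NormedSpace ℝ R] where
  x : A
  y : J.Obc (J.cf a)
  hb : ∀ b, Act J.m (J.cf a) x (some b) (J.Θ y.s)
  /-- the module is literal beyond this depth -/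
  R0 : ℝ
  bS : (W.Z (J.cf a)).M → CL U (Fm (Option κ) (HS (Fin y.x.m.N)))
  dS : Option κ → (W.Z (J.cf a)).M → ℝ
  lo : (W.Z (J.cf a)).M → CL (Cf (Option κ) (Fin y.x.m.N)) R
  lz : CL (EuclideanSpace ℂ (Fin r)) R
  pZ : (J.xs x).Y.M → En (Fin y.x.m.N)
  ρZ : Option κ → (J.xs x).Y.M → En (Fin y.x.m.N)
  jZ : (J.xs x).Y.M → CL (Eu (lam ⊕ lam)) (En (Fin y.x.m.N))
  AZ : Option κ → (J.xs x).Y.M → En (Fin y.x.m.N)
  ΦZ : (J.xs x).Y.M → Eu (Fin y.x.m.N)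
  bZ : (J.xs x).Y.M → CL U (Fm (Option κ) (HS (Fin y.x.m.N)))
  dZ : Option κ → (J.xs x).Y.M × ℝ → ℝ
  bp : (J.xs x).Y.M × ℝ → ℝ
  mo : (J.xs x).Y.M × ℝ → CL (Cf (Option κ) (Fin y.x.m.N)) Up

namespace Dat
variable {U Up R : Type} [NormedAddCommGroup U] [NormedSpace ℝ U] [NormedAddCommGroup Up]
  [NormedSpace ℝ Up] [NormedAddCommGroup R] [NormedSpace ℝ R] (d : Dat J σ a U Up R)

abbrev N : ℕ := d.y.x.m.N
abbrev Jc : En (Fin d.N) := d.y.x.m.J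
abbrev Y : Type := (J.xs d.x).Y.M
abbrev D : YD (J.xs d.x).Y.I d.Y κ (lam ⊕ lam) := (J.xs d.x).D

/-- the parameters -/
abbrev s (τ : ℝ) (t : Tc σ a) : A' → ℝ := ee d.y.s τ t

/-- the common data -/
def cm : Cm d.N r h R := ⟨d.y.x.z, fun i => d.y.ψ i, d.lz⟩

/-- the critical points -/
def β (u : U) : YC d.Y κ (lam ⊕ lam) :=
  ⟨⟨d.N, d.Jc, d.pZ, d.ρZ, d.jZ⟩, fun i y => d.AZ i y + opL (d.bZ y u i), d.ΦZ, 0⟩

/-! #### the face -/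

/-- the ends -/
abbrev KS (b : Bool) : Nk d.D (J.B (J.cf a)) (J.G (J.cf a) d.y.s) := J.K _ d.x (some b) _ (d.hb b)

def hS (z : (W.Z (J.cf a)).M) : ℝ := ka ((d.KS false).τ z - d.R0) + ka (-(d.KS true).τ z - d.R0)

theorem sm_hS : Sm (W.Z (J.cf a)).I d.hS :=
  (cd_ka.contMDiff.comp ((d.KS false).sm_τ.sub contMDiff_const)).add
    (cd_ka.contMDiff.comp ((d.KS true).sm_τ.neg.sub contMDiff_const))

abbrev FS : Mod61.Fam (W.Z (J.cf a)).I (W.Z (J.cf a)).M (Option κ) (lam ⊕ lam) (Tc σ a) :=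
  Cht98.jFam (J.cf a) J d.y.s (d.s 1) univ univ

def S : Sid d.FS d.N d.Jc U Up R :=
  ⟨d.y.x.m.p, d.y.x.m.ρ, d.y.x.m.j, d.y.x.W, d.y.x.Φ, d.bS, d.dS, 0, 0, d.lo, d.hS, d.sm_hS⟩

def εS (q : Wi →₀ ℝ) : Eqn d.FS r n (min r 1) (J.cut (J.cf a)) :=
  ⟨fun t => eqX J _ q (d.s 1 t), fun t => J.σc _ q (d.s 1 t)⟩

/-! #### the cylinder -/

abbrev FZ : Mod61.Fam (IC (J.xs d.x).Y.I) (d.Y × ℝ) (Option κ) (lam ⊕ lam) (Tc σ a) :=
  Nk89.cst (Tc σ a) d.D.B d.D.G univ univ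

def hZ (τ : ℝ) (z : d.Y × ℝ) : ℝ := tent d.R0 τ z.2

theorem sm_hZ (τ : ℝ) : Sm (IC (J.xs d.x).Y.I) (d.hZ τ) :=
  (cd_tent _ τ).contMDiff.comp contMDiff_snd

def Z (τ : ℝ) : Sid d.FZ d.N d.Jc U Up R :=
  ⟨fun z => d.pZ z.1, fun i z => d.ρZ i z.1, fun z => d.jZ z.1, fun i z => d.AZ i z.1,
    fun z => d.ΦZ z.1, fun z => d.bZ z.1, d.dZ, d.bp, d.mo, 0, d.hZ τ, d.sm_hZ τ⟩

def eZ (q : Wi →₀ ℝ) (_ : Tc σ a) : PtX (d.Y × ℝ) (Option κ) (lam ⊕ lam) r n (min r 1) where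
  D x := x.eD d.D.G ((J.xs d.x).N.pt d.D.nk ((J.xs d.x).q q) : Pt _ _ _ r n)
  C x := x.eC d.D.B d.D.G ((J.xs d.x).N.pt d.D.nk ((J.xs d.x).q q) : Pt _ _ _ r n)
  S _ := 0
  R _ := 0

/-! #### the long neck -/

/-- admissible neck parameters -/
abbrev Ta : Type := {τ : ℝ // Act J.m M.c0 d.x none (J.Θ (d.s τ 0))}

variable (τ : d.Ta)

abbrev KX : Nk d.D (J.B M.c0) (J.G M.c0 (d.s τ 0)) := J.K _ d.x none _ τ.2

def hX (z : (W.Z M.c0).M) : ℝ := tent d.R0 τ ((d.KX τ).τ z - nl τ / 2)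

theorem sm_hX : Sm (W.Z M.c0).I (d.hX τ) :=
  (cd_tent _ τ).contMDiff.comp ((d.KX τ).sm_τ.sub contMDiff_const)

open Classical in
/-- the frame of the face, with the neck of `τ` -/
def eh (i : Option κ) (z : (W.Z M.c0).M) : TangentSpace (W.Z M.c0).I z :=
  if |Cht98.hZ W.toCaps M.c0 d.x z| < 3 / 4 then J.fr M.c0 (d.s τ 0) i z
  else J.fr M.c0 d.y.s i z

open Classical in
/-- the reference background -/
def Gh : Geo (W.Z M.c0).I (W.Z M.c0).M (Option κ) (lam ⊕ lam) :=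
  ((Λ.Λ J.m M.c0).ln (J.Θ d.y.s)).geo
    (if h : ∀ z, Met55.FAt (d.eh τ) z then Met55.rFr (d.eh τ) h else (W.L J.m M.c0).F0)

abbrev FX : Mod61.Fam (W.Z M.c0).I (W.Z M.c0).M (Option κ) (lam ⊕ lam) (Tc σ a) :=
  Met55.fam (J.B M.c0) (d.Gh τ).F (d.Gh τ) (fun t => J.G M.c0 (d.s τ t))
    {t | J.Θ (d.s τ t) ∈ M.O M.c0.1} univ univ

/-- the height up to which the face is literal -/
def la (τ : ℝ) : ℝ := ka (-len 1 true ((1 - τ) / 2) - d.R0)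

/-- `up` below the height `la τ` -/
def φ (τ : ℝ) : OpenPartialHomeomorph (W.Z (J.cf a)).M (W.Z M.c0).M :=
  ((W.φ (J.cf a)).toOpenPartialHomeomorph.symm.trans (W.φ M.c0).toOpenPartialHomeomorph).restrOpen
    {z | d.hS z < d.la τ} (isOpen_lt d.sm_hS.continuous continuous_const)

/-- the centred neck -/
def ψ : OpenPartialHomeomorph (d.Y × ℝ) (W.Z M.c0).M :=
  (((Homeomorph.refl d.Y).prodCongr (Homeomorph.addRight (nl τ / 2))).toOpenPartialHomeomorph.trans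
    (d.KX τ).ψ).restrOpen {z | 0 < d.hZ τ z} (isOpen_lt continuous_const (d.sm_hZ τ).continuous)

/-- the cut-off of the pre-gluing -/
def χ (z : (W.Z M.c0).M) : ℝ := Real.smoothTransition (d.hX τ z - (d.la τ - 2))

/-- pre-gluing -/
def mix {V : Type} [NormedAddCommGroup V] [NormedSpace ℝ V] (f : (W.Z (J.cf a)).M → V)
    (g : d.Y × ℝ → V) (z : (W.Z M.c0).M) : V :=
  (1 - d.χ τ z) • f ((d.φ τ).symm z) + d.χ τ z • g ((d.ψ τ).symm z)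

def Xs : Sid (d.FX τ) d.N d.Jc U Up R :=
  ⟨d.mix τ d.S.p (d.Z τ).p, fun i => d.mix τ (d.S.ρ i) ((d.Z τ).ρ i), d.mix τ d.S.j (d.Z τ).j,
    fun i => d.mix τ (d.S.A0 i) ((d.Z τ).A0 i), d.mix τ d.S.Φ0 (d.Z τ).Φ0,
    d.mix τ d.S.b (d.Z τ).b, fun i => d.mix τ (d.S.dr i) ((d.Z τ).dr i), d.mix τ 0 d.bp,
    d.mix τ 0 d.mo, d.mix τ d.lo 0, d.hX τ, d.sm_hX τ⟩

def εX (q : Wi →₀ ℝ) : Eqn (d.FX τ) r n (min r 1) (J.cut M.c0) :=
  ⟨fun t => eqX J _ q (d.s τ t), fun t => J.σc _ q (d.s τ t)⟩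

/-- parameters of the Banach model -/
abbrev PH : Type := (d.Xs τ).PH r (J.cut M.c0)

/-- the object of a smooth point -/
def ob (w : (W.Z M.c0).M → Cf (Option κ) (Fin d.N)) (p : d.PH τ) : J.Obc M.c0 :=
  ⟨d.s τ p.1, (d.Xs τ).cfg d.cm w ((d.Xs τ).emb p), univ,
    fun i => (Hd _ _).orthogonalProjectionOnto (d.cm.ψ0 i) + p.2.2.2 i, d.y.β, d.y.ζ, 0, 0, 0⟩

/-- literal on both ends -/
def Lit {V : Type} (f : (W.Z (J.cf a)).M → V) (g : d.Y × ℝ → V) : Prop :=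
  ∀ b y s u, d.R0 < -pm b * s → 1 ≤ pm b * u → f ((d.KS b).ψ (y, s)) = g (y, u)

/-- exponential convergence on both ends -/
def Dec (δ : ℝ) {V : Type} [NormedAddCommGroup V] [NormedSpace ℝ V] (f : (W.Z (J.cf a)).M → V)
    (g : d.Y → V) : Prop :=
  ∀ w : List (Option κ), ∃ C, ∀ b (z : d.Y × ℝ), d.R0 < -pm b * z.2 →
    ‖d.D.Z.Dw w (fun z => f ((d.KS b).ψ z) - g z.1) z‖ ≤ C * Real.exp (-δ * |z.2|)

/-- the standing hypotheses (`δ` = weight) -/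
structure OK (q₀ : Wi →₀ ℝ) (δ : ℝ) : Prop where
  ok : J.OK
  nW : W.Nrm
  nΛ : Λ.Nrm
  mem : σ ∈ J.𝒦
  fr : σ a = none
  hd : J.hd a = some d.x
  unc : J.unc (J.cf a) = univ
  sol : Sol σ q₀ d.y
  tight : d.y.Tight
  top : ∃ z, d.y.x.Φ z ≠ 0
  int : ∀ a', σ a' = none → a' ≠ a → d.y.s a' ∈ Ioo (0 : ℝ) 1
  δ0 : 0 < δ
  δ1 : 4 * δ ≤ Cht98.dl0 ∧ ∀ x, 4 * δ < (J.xs x).N.δ
  R1 : 1 ≤ d.R0
  okS : d.S.OK
  okZ : ∀ τ, (d.Z τ).OK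
  lp : d.Lit d.S.p fun z => d.pZ z.1
  lρ : ∀ i, d.Lit (d.S.ρ i) fun z => d.ρZ i z.1
  lj : d.Lit d.S.j fun z => d.jZ z.1
  lb : d.Lit d.bS fun z => d.bZ z.1
  ld : ∀ i, d.Lit (d.dS i) (d.dZ i)
  ll : d.Lit d.lo 0
  bp : ∀ z : d.Y × ℝ, 1 ≤ |z.2| → d.bp z = 0 ∧ d.mo z = 0
  dec : ∃ δ', 2 * δ < δ' ∧ (∀ i, d.Dec δ' (d.y.x.W i) (d.AZ i)) ∧ d.Dec δ' d.y.x.Φ d.ΦZ
  β : ∀ b, d.y.β d.x b = d.β 0 ∧ d.y.ζ d.x b = 1
  crit : ∀ᶠ u in 𝓝 (0 : U), (J.xs d.x).N.Crit d.D (d.β u)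
  b0 : (d.bS = 0 ∧ d.bZ = 0) ∨ (∀ x, Ink3.Nil (J.xs x).N ∧ (J.xs x).ty = 0) ∧ d.ΦZ = 0
  δ2 : δ ≤ 1 / 32

end Dat
end Crest.Agent.X212.Gj67
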