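import Crest.Agent.X212.An.Gsm
import Crest.Agent.X212.Rf65.Abs

/-!
# Row 212, GL (helper67), layer 2: gluing charts give `gl_reg`, `gl_ex`, `gl_uniq`

`G : Gc Q` is a family of charts `Θ τ : E τ → C (o τ)` with equations `H q τ`; `t` is the wall
function, `Ms q` the solution set of the cell (`Gx.M σ q`).
-/

set_option autoImplicit false
set_option linter.unusedSectionVars false
noncomputable section
open Set Filter Topology Function Metric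

namespace Crest.Agent.X212.Gl67
open Mod61 Slc61 An Neck67

/-- an approximate non-linear lower bound on a dense set gives uniform local diffeomorphisms -/
theorem near_of_low {ι : Type} {l : Filter ι} {E F : ι → Type} [∀ i, NormedAddCommGroup (E i)]
    [∀ i, NormedSpace ℝ (E i)] [∀ i, CompleteSpace (E i)] [∀ i, NormedAddCommGroup (F i)]
    [∀ i, NormedSpace ℝ (F i)] [∀ i, CompleteSpace (F i)] {H : ∀ i, E i → F i}
    {H' : ∀ i, E i → E i →L[ℝ] F i} {D : ∀ i, Set (E i)} {C r : ℝ} (hC : 1 ≤ C) (hr : 0 < r)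
    (hd : ∀ᶠ i in l, Dense (D i) ∧ Fred93.Fr (H' i 0) 0 ∧ ‖H' i 0‖ ≤ C ∧
      ∀ u ∈ closedBall (0 : E i) r, HasFDerivAt (H i) (H' i u) u ∧ ‖H' i u - H' i 0‖ ≤ C * ‖u‖)
    (low : ∀ ε > 0, ∀ᶠ i in l, ∀ u ∈ D i, ‖u‖ ≤ r → ‖u‖ ≤ C * ‖H i u‖ + ε)
    (h0 : Tendsto (fun i => ‖H i 0‖) l (𝓝 0)) :
    ∀ᶠ i in l, (∃ (L : E i ≃L[ℝ] F i) (H' : _), ‖(L.symm : F i →L[ℝ] E i)‖ ≤ 2 * C ∧
      Near L (H i) H' 0 (min (r / 2) (1 / (4 * C ^ 2)))) ∧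
      ∀ u ∈ closedBall (0 : E i) (min (r / 2) (1 / (4 * C ^ 2))),
        ‖H i u - H i 0‖ ≤ 2 * C * ‖u‖ := by
  set ρ := min (r / 2) (1 / (4 * C ^ 2))
  have C0 : 0 < C := one_pos.trans_le hC
  have ρ0 : 0 < ρ := lt_min (half_pos hr) (by positivity)
  have ρ1 : ρ < r := (min_le_left _ _).trans_lt (half_lt_self hr)
  have ρ2 : 4 * C ^ 2 * ρ ≤ 1 := (le_div_iff₀' (by positivity)).1 (min_le_right _ _)
  have h1 : Tendsto (fun i => C * ‖H i 0‖) l (𝓝 0) := by simpa using h0.const_mul C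
  filter_upwards [hd, low (ρ / 8) (by positivity),
    h1.eventually_le_const (show 0 < ρ / 8 by positivity)] with i ⟨d1, d2, d3, d4⟩ e1 e2
  have sub : closedBall (0 : E i) ρ ⊆ closedBall 0 r := closedBall_subset_closedBall ρ1.le
  have b1 : ∀ u ∈ closedBall (0 : E i) ρ, ‖H' i u - H' i 0‖ ≤ C * ρ := fun u hu =>
    (d4 u (sub hu)).2.trans (mul_le_mul_of_nonneg_left (mem_closedBall_zero_iff.1 hu) C0.le)
  have tay : ∀ u ∈ closedBall (0 : E i) ρ, ‖H i u - H i 0 - H' i 0 u‖ ≤ C * ρ * ‖u‖ := fun u hu => by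
    simpa using (convex_closedBall (0 : E i) ρ).norm_image_sub_le_of_norm_hasFDerivWithin_le'
      (fun z hz => (d4 z (sub hz)).1.hasFDerivWithinAt) b1 (mem_closedBall_self ρ0.le) hu
  have e3 : ∀ u : E i, ‖u‖ = ρ → ρ ≤ 2 * C * ‖H' i 0 u‖ := fun u hu => by
    have hu' := mem_closedBall_zero_iff.2 hu.le
    have a1 : ‖u‖ ≤ C * ‖H i u‖ + ρ / 8 := ContinuousWithinAt.closure_le (s := ball 0 r ∩ D i)
      (f := fun u => ‖u‖) (g := fun u => C * ‖H i u‖ + ρ / 8)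
      (d1.open_subset_closure_inter isOpen_ball (mem_ball_zero_iff.2 (hu.trans_lt ρ1)))
      continuous_norm.continuousWithinAt
      (((d4 u (sub hu')).1.continuousAt.norm.const_mul C).add_const _).continuousWithinAt
      fun v hv => e1 v hv.2 (mem_ball_zero_iff.1 hv.1).le
    have a2 : ‖H i u‖ ≤ ‖H i 0‖ + ‖H' i 0 u‖ + C * ρ * ‖u‖ := by
      have := norm_add₃_le (a := H i 0) (b := H' i 0 u) (c := H i u - H i 0 - H' i 0 u)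
      rw [show H i 0 + H' i 0 u + (H i u - H i 0 - H' i 0 u) = H i u by abel] at this
      linarith [tay u hu']
    rw [hu] at a1 a2
    nlinarith [mul_le_mul_of_nonneg_left a2 C0.le, mul_le_mul_of_nonneg_right ρ2 ρ0.le]
  obtain ⟨L, hL, hn⟩ := Rf65.exists_equiv_of_low d2 (K := 2 * C) (by positivity) fun u => by
    rcases eq_or_ne u 0 with rfl | hu
    · simp
    have n0 := norm_pos_iff.2 hu
    have := e3 ((ρ / ‖u‖) • u) (by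
      rw [norm_smul, Real.norm_of_nonneg (by positivity), div_mul_cancel₀ _ n0.ne'])
    rw [map_smul, norm_smul, Real.norm_of_nonneg (by positivity)] at this
    have a1 := mul_le_mul_of_nonneg_right this (div_pos n0 ρ0).le
    field_simp at a1
    linarith
  refine ⟨⟨L, H' i, hn, fun u hu => (d4 u (sub hu)).1, fun u hu => ?_⟩, fun u hu => ?_⟩
  · rw [hL]
    nlinarith [mul_le_mul hn (b1 u hu) (norm_nonneg _) (by positivity)]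
  · have a1 := norm_add_le (H' i 0 u) (H i u - H i 0 - H' i 0 u)
    rw [add_sub_cancel] at a1
    have a2 := (H' i 0).le_of_opNorm_le d3 u
    have a3 : C * ρ ≤ C := by nlinarith
    nlinarith [tay u hu, mul_le_mul_of_nonneg_right a3 (norm_nonneg u)]

section tr
variable {E C F Y R : Type} [NormedAddCommGroup E] [NormedSpace ℝ E] [NormedAddCommGroup C]
  [NormedSpace ℝ C] [NormedAddCommGroup F] [NormedSpace ℝ F] [NormedAddCommGroup Y]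
  [NormedSpace ℝ Y] [NormedAddCommGroup R] [NormedSpace ℝ R] {H : E → Y × R} {H' : E →L[ℝ] Y × R}
  {Θ : E → C} {A : E →L[ℝ] C} {f : C → F} {f' : C →L[ℝ] F} {t : C → ℝ} {t' : C →L[ℝ] ℝ}
  {ρ : F →L[ℝ] Y} {u : E} (hH : HasFDerivAt H H' u) (hs : Surjective H') (hΘ : HasFDerivAt Θ A u)
  (hf : HasFDerivAt f f' (Θ u)) (ht : HasFDerivAt t t' (Θ u)) (hρ : Injective ρ)
  (e : ∀ᶠ v in 𝓝 u, (H v).1 = ρ (f (Θ v)))
include hH hs hΘ hf hρ e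

theorem solve (y : F) (r : R) : ∃ v, f' (A v) = y ∧ (H' v).2 = r := by
  obtain ⟨v, hv⟩ := hs (ρ y, r)
  have h1 := DFunLike.congr_fun (hH.fst.unique
    ((ρ.hasFDerivAt.comp u (hf.comp u hΘ)).congr_of_eventuallyEq e)) v
  exact ⟨v, hρ (h1.symm.trans (congrArg Prod.fst hv)), congrArg Prod.snd hv⟩

include ht

/-- transversality for charts inside a level set -/
theorem tr_of_lev {τ : ℝ} (l : ∀ᶠ v in 𝓝 u, t (Θ v) = τ) {c : C} (hc : t' c ≠ 0) :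
    Surjective (f'.prod t') := fun ⟨y, s⟩ => by
  obtain ⟨v, h1, -⟩ := solve hH hs hΘ hf hρ e (y - f' ((s / t' c) • c)) 0
  have h2 : t' (A v) = 0 := DFunLike.congr_fun ((ht.comp u hΘ).unique
    ((hasFDerivAt_const τ u).congr_of_eventuallyEq l)) v
  exact ⟨A v + (s / t' c) • c, Prod.ext (by simp [h1]) (by simp [h2, div_mul_cancel₀ _ hc])⟩

/-- transversality for charts that have a function of `t` among their rows -/
theorem tr_of_row {ℓ : R →L[ℝ] ℝ} {r : R} (hr : ℓ r ≠ 0) {φ : ℝ → ℝ} {φ' : ℝ}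
    (hφ : HasDerivAt φ φ' (t (Θ u))) (l : ∀ᶠ v in 𝓝 u, ℓ (H v).2 = φ (t (Θ v))) :
    Surjective (f'.prod t') := by
  have h0 : ∀ v, ℓ (H' v).2 = φ' * t' (A v) := fun v => by
    simpa [mul_comm] using DFunLike.congr_fun ((ℓ.hasFDerivAt.comp u hH.snd).unique
      ((hφ.hasFDerivAt.comp u (ht.comp u hΘ)).congr_of_eventuallyEq l)) v
  obtain ⟨v, -, h1⟩ := solve hH hs hΘ hf hρ e 0 r
  have h2 : φ' ≠ 0 := fun h => hr (by rw [← h1, h0, h, zero_mul])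
  rintro ⟨y, s⟩
  obtain ⟨w, h3, h4⟩ := solve hH hs hΘ hf hρ e y ((φ' * s / ℓ r) • r)
  refine ⟨A w, Prod.ext h3 (mul_left_cancel₀ h2 ((h0 w).symm.trans ?_))⟩
  rw [h4, map_smul, smul_eq_mul, div_mul_cancel₀ _ hr]

end tr

variable {W : Type} {Q : Prob W} {t : ∀ o, Q.C o → ℝ} {Adm : (W →₀ ℝ) → Prop} {q : W →₀ ℝ}

section loc
variable (h : Q.Ax Adm) (ht : InvF Q t) (hn : Q.n = 1) (ha : Adm q)
include h ht hn ha

/-- a transverse solution is isolated in its level set -/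
theorem isol {x : Q.X} (hx : Q.Sol q x) (hT : Trv Q t q x) :
    ∀ᶠ v in 𝓝 (Q.pt x.2), ∀ y : Q.S x.1, Q.pt y = v →
      Q.Sol q ⟨x.1, y⟩ → val Q t ⟨x.1, y⟩ = val Q t x → Q.eqv ⟨x.1, y⟩ x := by
  have := h.cont x.1
  have hZU : Q.Z {x | Q.Sol q x} x.1 ⊆ Q.U x.1 := sat_subset (h.inv _) (by
    rintro _ ⟨y, hy, rfl⟩
    exact h.mem _ hy.1)
  have hm := Q.pt_mem_Z (A := {x | Q.Sol q x}) (o := x.1) (y := x.2) hx
  have h1 := (hn ▸ h.slcReg ha hx hT.reg).tr (Q.inv_Z _ _) hm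
    (fun g v hv => ht.g x.1 g v (hZU hv)) ((ht.at h hx.1).hasStrictFDerivAt one_ne_zero) hT
  have h2 := (continuous_mk.tendsto _).eventually h1.eventually_ne
  rw [nhds_subtype_eq_comap, eventually_comap] at h2
  filter_upwards [h2] with v hv y e hy hp
  have hy' := Q.pt_mem_Z (A := {x | Q.Sol q x}) (o := x.1) (y := y) hy
  exact (h.orb x.1 y x.2 hy.1 hx.1).2 (mk_eq_iff.1 (hv ⟨_, hy'⟩ e hp))

/-- transversality only depends on the class -/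
theorem tr_eqv {x x' : Q.X} (hx : Q.Sol q x') (hT : Trv Q t q x') (e : Q.eqv x' x) :
    Trv Q t q x := by
  obtain ⟨D, -, h2, h3⟩ := h.slc q x' ha hx
  have hU := h.mem x' hx.1
  have hF := h.strictF q hU
  have hs := (ht.at h hx.1).hasStrictFDerivAt one_ne_zero
  set F' := fderiv ℝ (Q.F x'.1 q) (Q.pt x'.2)
  set t' := fderiv ℝ (t x'.1) (Q.pt x'.2)
  have d1 : F'.comp D.d = 0 := D.comp_d_eq_zero hF.hasFDerivAt (.of_forall fun ξ => by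
    rw [h.F_smul q _ hU hx.2, hx.2])
  have d2 : t'.comp D.d = 0 := D.comp_d_eq_zero hs.hasFDerivAt (.of_forall fun ξ => ht.g _ _ _ hU)
  have d3 : (F'.prod t').comp D.d = 0 := by
    ext ξ
    · simpa using DFunLike.congr_fun d1 ξ
    · simpa using DFunLike.congr_fun d2 ξ
  have s1 := (surj_prod_iff d3 D.bij.2).2 hT
  have s2 : Surjective ((F'.prod D.σ).prod t') := fun ⟨⟨f, w⟩, r⟩ => by
    obtain ⟨v, hv⟩ := s1 ((f, r), w)
    simp only [ContinuousLinearMap.prod_apply, Prod.mk.injEq] at hv ⊢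
    exact ⟨v, ⟨hv.1.1, hv.2⟩, hv.1.2⟩
  have f0 : Fred93.Fr ((F'.prod D.σ).prod t') 0 := (h2.prod t').cast (by simp [hn])
  let B := ContinuousLinearEquiv.ofBijective _ (LinearMap.ker_eq_bot.2 (f0.inj_of_surj s2))
    (LinearMap.range_eq_top.2 s2)
  have hB : HasStrictFDerivAt (fun v => ((Q.F x'.1 q v, D.γ v), t x'.1 v))
      (B : _ →L[ℝ] _) (Q.pt x'.2) := (hF.prodMk D.gf).prodMk hs
  set p := ((Q.F x'.1 q (Q.pt x'.2), D.γ (Q.pt x'.2)), t x'.1 (Q.pt x'.2))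
  have l1 : HasDerivAt (fun s : ℝ => p + s • ((0, 1) : (_ × _) × ℝ)) (0, 1) 0 := by
    simpa using ((hasDerivAt_id (0 : ℝ)).smul_const ((0, 1) : (_ × _) × ℝ)).const_add p
  have p0 : p + (0 : ℝ) • ((0, 1) : (_ × _) × ℝ) = p := by simp
  set c := fun s : ℝ => hB.localInverse _ _ _ (p + s • ((0, 1) : (_ × _) × ℝ))
  have c0 : c 0 = Q.pt x'.2 := by simp only [c, p0]; exact hB.localInverse_apply_image
  have c1 : HasDerivAt c (B.symm (0, 1)) 0 :=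
    hB.to_localInverse.hasFDerivAt.comp_hasDerivAt_of_eq (0 : ℝ) l1 p0.symm
  have c2 := l1.continuousAt.tendsto
  rw [p0] at c2
  have c3 := c1.continuousAt.tendsto
  rw [c0] at c3
  obtain ⟨T, t1, t2, t3⟩ := h.tr x' x hx.1 e
  obtain ⟨A', ρ, a1, -, a3, -⟩ := t2.F
  have hxI := h.in_eqv _ _ e hx.1
  have c4 : ∀ᶠ s in 𝓝 (0 : ℝ), t x.1 (T (c s)) = p.2 + s := by
    filter_upwards [c2.eventually hB.eventually_right_inverse, c3.eventually h3] with s e1 e2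
    have e3 : t x'.1 (c s) = p.2 + s * 1 := congrArg Prod.snd e1
    have e8 : Q.F x'.1 q (c s) = Q.F x'.1 q (Q.pt x'.2) + s • 0 := congrArg (fun z => z.1.1) e1
    have e9 : D.γ (c s) = D.γ (Q.pt x'.2) + s • 0 := congrArg (fun z => z.1.2) e1
    obtain ⟨y, e4, e5⟩ := e2 (by rw [e8, hx.2, smul_zero, add_zero])
      (by rw [e9, D.gf0, smul_zero, add_zero])
    obtain ⟨y', e6, e7⟩ := t3 y
    have := ht.e _ _ e5 e7
    simp only [val, e6, e4] at this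
    rw [← this]
    exact e3.trans (by rw [mul_one])
  have a1' : HasFDerivAt T A' (c 0) := c0 ▸ a1
  have a2 : HasFDerivAt (t x.1) (fderiv ℝ (t x.1) (Q.pt x.2)) (T (c 0)) := by
    rw [c0, t1]; exact ((ht.at h hxI).differentiableAt one_ne_zero).hasFDerivAt
  have k1 : fderiv ℝ (t x.1) (Q.pt x.2) (A' (B.symm (0, 1))) = 1 :=
    (a2.comp_hasDerivAt (0 : ℝ) (a1'.comp_hasDerivAt (0 : ℝ) c1)).unique
      (((hasDerivAt_id (0 : ℝ)).const_add p.2).congr_of_eventuallyEq c4)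
  have k2 : fderiv ℝ (Q.F x.1 q) (Q.pt x.2) (A' (B.symm (0, 1))) = 0 := by
    have h5 := (t1 ▸ (h.strictF q (h.mem x hxI)).hasFDerivAt).comp _ a1
    have h6 := (ρ.hasFDerivAt.comp _ hF.hasFDerivAt).congr_of_eventuallyEq (a3 q)
    have h7 := DFunLike.congr_fun (h5.unique h6) (B.symm (0, 1))
    have h8 : F' (B.symm (0, 1)) = 0 := congrArg (fun z => z.1.1) (B.apply_symm_apply (0, 1))
    rw [← t1]
    simpa [h8] using h7
  rintro ⟨f, r⟩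
  obtain ⟨u, hu⟩ := h.reg_eqv (Q.eqv.symm e) hxI hT.reg f
  exact ⟨u + (r - fderiv ℝ (t x.1) (Q.pt x.2) u) • A' (B.symm (0, 1)), by simp [hu, k1, k2]⟩

end loc

variable (Q) in
/-- a family of gluing charts for one face object -/
structure Gc : Type 1 where
  o : ℝ → Q.O
  E : ℝ → Type
  Y : ℝ → Type
  [nE : ∀ τ, NormedAddCommGroup (E τ)]
  [sE : ∀ τ, NormedSpace ℝ (E τ)]
  [cE : ∀ τ, CompleteSpace (E τ)]
  [nY : ∀ τ, NormedAddCommGroup (Y τ)]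
  [sY : ∀ τ, NormedSpace ℝ (Y τ)]
  Θ : ∀ τ, E τ → Q.C (o τ)
  /-- equations and rows -/
  H : (W →₀ ℝ) → ∀ τ, E τ → Y τ
  /-- smooth points on the level `τ` -/
  D : ∀ τ, Set (E τ)
  /-- values `(0, smooth row)` -/
  Rs : ∀ τ, Set (Y τ)

attribute [instance] Gc.nE Gc.sE Gc.cE Gc.nY Gc.sY

namespace Gc
variable (G : Gc Q)

/-- degeneration to the face object -/
def Deg {ι : Type} (l : Filter ι) (u : ι → Q.X) : Prop :=
  ∃ (τ : ι → ℝ) (w : ∀ i, G.E (τ i)), Tendsto τ l (𝓝 1) ∧ Tendsto (fun i => ‖w i‖) l (𝓝 0) ∧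
    ∀ᶠ i in l, Q.In (u i) ∧ w i ∈ G.D (τ i) ∧
      ∃ y, Q.pt y = G.Θ (τ i) (w i) ∧ Q.eqv (u i) ⟨G.o (τ i), y⟩

variable (t) in
/-- the smooth points of the chart at `τ` lie on the level `τ` -/
def Lev : Prop := ∀ τ, ∀ u ∈ G.D τ, t (G.o τ) (G.Θ τ u) = τ

variable (t) in
/-- the chart at `τ` is a local diffeomorphism of size `r` -/
structure Ok (Ms : Set Q.X) (q : W →₀ ℝ) (τ C r : ℝ) : Prop where
  near : ∃ (L : G.E τ ≃L[ℝ] G.Y τ) (H' : _),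
    ‖(L.symm : G.Y τ →L[ℝ] G.E τ)‖ ≤ C ∧ Near L (G.H q τ) H' 0 r
  lip : ∀ u ∈ closedBall (0 : G.E τ) r, ‖G.H q τ u - G.H q τ 0‖ ≤ C * ‖u‖
  cont : ContinuousOn (G.Θ τ) (closedBall 0 r)
  boot : ∀ u ∈ closedBall (0 : G.E τ) r, G.H q τ u ∈ G.Rs τ →
    u ∈ G.D τ ∧ ∃ y, Q.pt y = G.Θ τ u ∧ (⟨G.o τ, y⟩ : Q.X) ∈ Ms
  sm : ∀ u ∈ closedBall (0 : G.E τ) r, u ∈ G.D τ → Q.F (G.o τ) q (G.Θ τ u) = 0 → G.H q τ u ∈ G.Rs τ
  tr : ∀ u ∈ closedBall (0 : G.E τ) r, u ∈ G.D τ → Surjective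
    ((fderiv ℝ (Q.F (G.o τ) q) (G.Θ τ u)).prod (fderiv ℝ (t (G.o τ)) (G.Θ τ u)))
  cvx : Convex ℝ (G.Rs τ)
  zero : 0 ∈ G.Rs τ

variable (t) in
/-- the analytic gluing statement at `q₀` -/
def Glu (Ms : (W →₀ ℝ) → Set Q.X) (Adm : (W →₀ ℝ) → Prop) (q₀ : W →₀ ℝ) : Prop :=
  ∃ C r : ℝ, 0 < C ∧ 0 < r ∧ ∀ (ι : Type) (l : Filter ι) (τ : ι → ℝ) (q : ι → W →₀ ℝ),
    Tendsto τ l (𝓝[<] 1) → St.Cv l q q₀ → (∀ᶠ i in l, Adm (q i)) →
    (∀ᶠ i in l, G.Ok t (Ms (q i)) (q i) (τ i) C r) ∧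
      Tendsto (fun i => ‖G.H (q i) (τ i) 0‖) l (𝓝 0)

variable {G} {τ C r : ℝ} {ι : Type} {l : Filter ι} {u u' : ι → Q.X}

theorem Lev.val (hL : G.Lev t) {w : G.E τ} (d : w ∈ G.D τ) {y : Q.S (G.o τ)}
    (e : Q.pt y = G.Θ τ w) : val Q t ⟨G.o τ, y⟩ = τ := by
  simp only [An.val, e, hL τ w d]

theorem deg_one (ht : InvF Q t) (hL : G.Lev t) (hd : G.Deg l u) :
    Tendsto (fun i => val Q t (u i)) l (𝓝 1) := by
  obtain ⟨τ, w, h1, -, h3⟩ := hd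
  exact h1.congr' (h3.mono fun i ⟨e1, d, y, e2, e3⟩ => ((ht.e _ _ e1 e3).trans (hL.val d e2)).symm)

/-- the other walls stay away (use it with the function `t` of another wall) -/
theorem deg_lt (ht : InvF Q t) {c ε : ℝ} (hε : 0 < ε)
    (hc : ∀ᶠ τ in 𝓝 (1 : ℝ), ∀ w ∈ G.D τ, ‖w‖ ≤ ε → t (G.o τ) (G.Θ τ w) ≤ c) (hd : G.Deg l u) :
    ∀ᶠ i in l, val Q t (u i) ≤ c := by
  obtain ⟨τ, w, h1, h2, h3⟩ := hd
  filter_upwards [h3, h2.eventually_le_const hε, h1.eventually hc] with i ⟨e1, d, y, e2, e3⟩ e4 e5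
  rw [ht.e _ _ e1 e3, val, e2]
  exact e5 _ d e4

theorem deg_congr (h : Q.Ax Adm) (hd : G.Deg l u)
    (e : ∀ᶠ i in l, Q.In (u i) ∧ Q.eqv (u i) (u' i)) : G.Deg l u' := by
  obtain ⟨τ, w, h1, h2, h3⟩ := hd
  refine ⟨τ, w, h1, h2, ?_⟩
  filter_upwards [h3, e] with i ⟨e1, e0, y, e2, e3⟩ ⟨_, e4⟩
  exact ⟨h.in_eqv _ _ e4 e1, e0, y, e2, Q.eqv.trans (Q.eqv.symm e4) e3⟩

namespace Ok
variable {Ms : Set Q.X} (hO : G.Ok t Ms q τ C r)
include hO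

theorem trv {w : G.E τ} (hw : ‖w‖ ≤ r) (d : w ∈ G.D τ) {y : Q.S (G.o τ)} (e : Q.pt y = G.Θ τ w) :
    Trv Q t q ⟨G.o τ, y⟩ := by
  rw [Trv, e]; exact hO.tr w (mem_closedBall_zero_iff.2 hw) d

theorem ex (h0 : 2 * C * ‖G.H q τ 0‖ ≤ r) : ∃ w ∈ G.D τ, ‖w‖ ≤ 2 * C * ‖G.H q τ 0‖ ∧
    ∃ y, Q.pt y = G.Θ τ w ∧ (⟨G.o τ, y⟩ : Q.X) ∈ Ms := by
  obtain ⟨L, H', hL, hN⟩ := hO.near
  have h1 := mul_le_mul_of_nonneg_right (mul_le_mul_of_nonneg_left hL zero_le_two)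
    (norm_nonneg (G.H q τ 0))
  obtain ⟨w, hw, e⟩ := hN.ex (y := 0) (by rw [sub_zero]; exact h1.trans h0)
  obtain ⟨h2, h3⟩ := hO.boot w hw (e ▸ hO.zero)
  have h4 := hN.dist_le hw
  rw [e, sub_zero, zero_sub, norm_neg] at h4
  exact ⟨w, h2, h4.trans h1, h3⟩

theorem uniq (h : Q.Ax Adm) (ht : InvF Q t) (hn : Q.n = 1) (ha : Adm q) (hL : G.Lev t)
    (hM : ∀ x ∈ Ms, Q.Sol q x) (hC : 0 < C) {w w' : G.E τ} (d : w ∈ G.D τ) (d' : w' ∈ G.D τ)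
    (hw : ‖w‖ ≤ r) (hw' : ‖w'‖ ≤ r) (s : 2 * C * (C * ‖w‖) ≤ r) (s' : 2 * C * (C * ‖w'‖) ≤ r)
    {y y' : Q.S (G.o τ)} (e : Q.pt y = G.Θ τ w) (e' : Q.pt y' = G.Θ τ w')
    (hy : Q.Sol q ⟨G.o τ, y⟩) (hy' : Q.Sol q ⟨G.o τ, y'⟩) : Q.eqv ⟨G.o τ, y⟩ ⟨G.o τ, y'⟩ := by
  obtain ⟨L, H', hL', hN⟩ := hO.near
  have b := mem_closedBall_zero_iff.2 hw
  have b' := mem_closedBall_zero_iff.2 hw'
  let p := AffineMap.lineMap (k := ℝ) (G.H q τ w) (G.H q τ w')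
  have key : ∀ s : Icc (0 : ℝ) 1, ∃ v ∈ closedBall (0 : G.E τ) r, G.H q τ v = p s.1 ∧ v ∈ G.D τ ∧
      ∃ y, Q.pt y = G.Θ τ v ∧ Q.Sol q ⟨G.o τ, y⟩ := fun s₀ => by
    have m : ∀ v ∈ closedBall (0 : G.E τ) r, 2 * C * (C * ‖v‖) ≤ r →
        G.H q τ v ∈ closedBall (G.H q τ 0) (r / (2 * C)) := fun v hv hs => by
      rw [mem_closedBall, dist_eq_norm, le_div_iff₀' (by positivity)]
      exact (mul_le_mul_of_nonneg_left (hO.lip v hv) (by positivity)).trans hs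
    have h1 := (convex_closedBall _ _).lineMap_mem (m w b s) (m w' b' s') s₀.2
    rw [mem_closedBall', dist_eq_norm, le_div_iff₀' (by positivity)] at h1
    obtain ⟨v, hv, ev⟩ := hN.ex (y := p s₀.1) ((mul_le_mul_of_nonneg_right
      (mul_le_mul_of_nonneg_left hL' zero_le_two) (norm_nonneg _)).trans h1)
    obtain ⟨h2, y, h4, h5⟩ := hO.boot v hv (ev ▸ hO.cvx.lineMap_mem
      (hO.sm w b d (e ▸ hy.2)) (hO.sm w' b' d' (e' ▸ hy'.2)) s₀.2)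
    exact ⟨v, hv, ev, h2, y, h4, hM _ h5⟩
  choose v hv ev dv ys e1 e2 using key
  have cv : Continuous v := continuous_iff_continuousAt.2 fun s₀ => by
    rw [ContinuousAt, tendsto_iff_norm_sub_tendsto_zero]
    have : Continuous fun s : Icc (0 : ℝ) 1 => 2 * ‖(L.symm : G.Y τ →L[ℝ] G.E τ)‖ * ‖p s.1 - p s₀.1‖ :=
      continuous_const.mul ((AffineMap.lineMap_continuous.comp continuous_subtype_val).sub
        continuous_const).norm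
    refine squeeze_zero (fun _ => norm_nonneg _) (fun s => ?_) (this.tendsto' s₀ 0 (by simp))
    rw [← ev, ← ev]; exact hN.low (hv s₀) (hv s)
  have cΘ : Continuous fun s => Q.pt (ys s) := by
    simp only [e1]; exact hO.cont.comp_continuous cv hv
  have lc : IsLocallyConstant fun s => Quotient.mk Q.eqv ⟨G.o τ, ys s⟩ :=
    (IsLocallyConstant.iff_eventually_eq _).2 fun s₀ => by
      filter_upwards [(cΘ.tendsto s₀).eventually (isol h ht hn ha (e2 s₀)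
        (hO.trv (mem_closedBall_zero_iff.1 (hv s₀)) (dv s₀) (e1 s₀)))] with s hs
      exact Quotient.sound (hs _ rfl (e2 s)
        ((hL.val (dv s) (e1 s)).trans (hL.val (dv s₀) (e1 s₀)).symm))
  have en : ∀ (s : Icc (0 : ℝ) 1) {w} {y : Q.S (G.o τ)}, w ∈ closedBall (0 : G.E τ) r →
      p s.1 = G.H q τ w → Q.pt y = G.Θ τ w → Q.Sol q ⟨G.o τ, y⟩ →
      Q.eqv ⟨G.o τ, ys s⟩ ⟨G.o τ, y⟩ := fun s w y b e3 e4 e5 =>
    (h.orb _ _ _ (e2 s).1 e5.1).2 ⟨1, by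
      rw [one_smul, e1, e4, hN.injOn (hv s) b ((ev s).trans e3)]⟩
  exact Q.eqv.trans (Q.eqv.symm (en ⟨0, by simp⟩ b (by simp [p]) e hy))
    (Q.eqv.trans (Quotient.exact (lc.apply_eq_of_preconnectedSpace _ _))
      (en ⟨1, by simp⟩ b' (by simp [p]) e' hy'))

end Ok

variable {Ms : (W →₀ ℝ) → Set Q.X} {q₀ : W →₀ ℝ} (hL : G.Lev t) (hG : G.Glu t Ms Adm q₀)
include hL hG

theorem gl_ex (hM : ∀ x ∈ Ms q₀, Q.In x) (ha : Adm q₀) {l : Filter ℝ} [l.NeBot]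
    (hl : l ≤ 𝓝[<] 1) : ∃ u, (∀ᶠ T in l, u T ∈ Ms q₀ ∧ val Q t (u T) = T) ∧ G.Deg l u := by
  obtain ⟨C, r, hC, hr, H⟩ := hG
  obtain ⟨h1, h2⟩ := H ℝ l id _ (tendsto_id'.2 hl) (St.cv_const l q₀) (.of_forall fun _ => ha)
  have h3 : Tendsto (fun T => 2 * C * ‖G.H q₀ T 0‖) l (𝓝 0) := by simpa using h2.const_mul (2 * C)
  have h4 := (h1.and (h3.eventually_le_const hr)).mono fun T hT => hT.1.ex hT.2
  obtain ⟨T₀, w₀, -, -, y₀, -⟩ := h4.exists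
  have : Nonempty Q.X := ⟨⟨_, y₀⟩⟩
  have : ∀ T, Nonempty (G.E T) := fun _ => ⟨0⟩
  choose! w x a1 using fun T (hT : ∃ (w : G.E T) (x : Q.X), w ∈ G.D T ∧ ‖w‖ ≤ 2 * C * ‖G.H q₀ T 0‖ ∧
    ∃ y, Q.pt y = G.Θ T w ∧ (⟨G.o T, y⟩ : Q.X) ∈ Ms q₀ ∧ x = ⟨G.o T, y⟩) => hT
  have h5 := h4.mono fun T ⟨w, b1, b2, y, b3, b4⟩ => a1 T ⟨w, _, b1, b2, y, b3, b4, rfl⟩
  exact ⟨x, h5.mono fun T ⟨b1, _, y, b3, b4, e⟩ => e ▸ ⟨b4, hL.val b1 b3⟩, id, w,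
    tendsto_id'.2 (hl.trans nhdsWithin_le_nhds),
    squeeze_zero' (.of_forall fun _ => norm_nonneg _) (h5.mono fun _ b => b.2.1) h3,
    h5.mono fun T ⟨b1, _, y, b3, b4, e⟩ => ⟨e ▸ hM _ b4, b1, y, b3, e ▸ Q.eqv.refl _⟩⟩

variable (h : Q.Ax Adm) (ht : InvF Q t) (hn : Q.n = 1)
include h ht hn

theorem gl_reg (hM : ∀ q, ∀ x ∈ Ms q, Q.Sol q x ∧ val Q t x < 1) {q : ι → W →₀ ℝ}
    (hq : St.Cv l q q₀) (hu : ∀ᶠ i in l, Adm (q i) ∧ u i ∈ Ms (q i)) (hd : G.Deg l u) :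
    ∀ᶠ i in l, Trv Q t (q i) (u i) := by
  obtain ⟨τ, w, h1, h2, h3⟩ := hd
  obtain ⟨C, r, -, hr, H⟩ := hG
  have h4 : Tendsto τ l (𝓝[<] 1) := tendsto_nhdsWithin_iff.2 ⟨h1, by
    filter_upwards [hu, h3] with i e0 ⟨e1, d, y, e2, e3⟩
    exact ((ht.e _ _ e1 e3).trans (hL.val d e2)).symm.trans_lt (hM _ _ e0.2).2⟩
  filter_upwards [(H ι l τ q h4 hq (hu.mono fun _ e => e.1)).1, h3, hu, h2.eventually_le_const hr]
    with i e0 ⟨_, d, y, e2, e3⟩ e4 e5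
  exact tr_eqv h ht hn e4.1 (h.sol_eqv e3 (hM _ _ e4.2).1) (e0.trv e5 d e2) (Q.eqv.symm e3)

theorem gl_uniq (hM : ∀ x ∈ Ms q₀, Q.Sol q₀ x) (ha : Adm q₀) {l : Filter ℝ} (hl : l ≤ 𝓝[<] 1)
    {u u' : ℝ → Q.X} (hu : ∀ᶠ T in l, u T ∈ Ms q₀ ∧ val Q t (u T) = T)
    (hu' : ∀ᶠ T in l, u' T ∈ Ms q₀ ∧ val Q t (u' T) = T) (hd : G.Deg l u) (hd' : G.Deg l u') :
    ∀ᶠ T in l, Q.eqv (u T) (u' T) := by
  obtain ⟨C, r, hC, hr, H⟩ := hG
  have key : ∀ {u : ℝ → Q.X}, (∀ᶠ T in l, u T ∈ Ms q₀ ∧ val Q t (u T) = T) → G.Deg l u →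
      ∀ᶠ T in l, ∃ w ∈ G.D T, ‖w‖ ≤ r ∧ 2 * C * (C * ‖w‖) ≤ r ∧
        ∃ y, Q.pt y = G.Θ T w ∧ Q.eqv (u T) ⟨G.o T, y⟩ := fun hu ⟨τ, w, _, h2, h3⟩ => by
    have h4 : Tendsto (fun T => 2 * C * (C * ‖w T‖)) l (𝓝 0) := by
      simpa using (h2.const_mul C).const_mul (2 * C)
    filter_upwards [hu, h3, h2.eventually_le_const hr, h4.eventually_le_const hr]
      with T e0 ⟨e1, e2, y, e3, e4⟩ e5 e6
    have e7 : τ T = T := ((ht.e _ _ e1 e4).trans (hL.val e2 e3)).symm.trans e0.2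
    generalize w T = v at e2 e3 e5 e6
    generalize τ T = s at v y e2 e3 e4 e5 e6 e7
    subst e7
    exact ⟨v, e2, e5, e6, y, e3, e4⟩
  filter_upwards [(H ℝ l id _ (tendsto_id'.2 hl) (St.cv_const l q₀) (.of_forall fun _ => ha)).1,
    key hu hd, key hu' hd', hu, hu']
    with T e0 ⟨w, d, a1, a2, y, a3, a4⟩ ⟨w', d', b1, b2, y', b3, b4⟩ e1 e2
  exact Q.eqv.trans a4 (Q.eqv.trans (e0.uniq h ht hn ha hL hM hC d d' a1 b1 a2 b2 a3 b3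
    (h.sol_eqv a4 (hM _ e1.1)) (h.sol_eqv b4 (hM _ e2.1))) (Q.eqv.symm b4))

end Gc

end Crest.Agent.X212.Gl67
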