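import Crest.Agent.X212.Gl67.Low
import Crest.Agent.X212.Gl67.Abs
import Crest.Agent.X212.Nk89.Idx
import Crest.Agent.X212.Map77.Fin
import Crest.Agent.X212.An.Cut

/-!
# Row 212, GL (helper67), layer 3: the sides of the gluing problem

`s : Sid 𝔉 N Jc U Up R` is a module with a base configuration, a height and rows.  Unknowns: a
section `w`, the parameter `t`, the moving limit `u : U`, `z` and the fields `ψ` of the cuts.
`s.eF` = (gauge row, Dirac, curvature, peak rows), `s.eR` = finitely many further rows.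
`s.Rep` : the Banach model (used on closed manifolds).
-/

set_option autoImplicit false
set_option linter.unusedSectionVars false
noncomputable section
open scoped Manifold ContDiff Topology InnerProductSpace ENNReal NNReal
open MeasureTheory Set Function Filter

namespace Crest.Agent.X212.Gl67
open An Prm93 Mod61 Map77

variable {E : Type} [NormedAddCommGroup E] [NormedSpace ℝ E] [FiniteDimensional ℝ E]
  [MeasurableSpace E] [BorelSpace E]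
  {HM : Type} [TopologicalSpace HM] {I : ModelWithCorners ℝ E HM} [I.Boundaryless]
  {M : Type} [TopologicalSpace M] [ChartedSpace HM M] [IsManifold I ∞ M]
  [MeasurableSpace M] [T2Space M] [BorelSpace M] [SecondCountableTopology M]
  {ι lam h : Type} [Fintype ι] [Fintype lam] [Fintype h]
  {T U Up R : Type} [NormedAddCommGroup T] [NormedSpace ℝ T] [NormedAddCommGroup U]
  [NormedSpace ℝ U] [NormedAddCommGroup Up] [NormedSpace ℝ Up] [NormedAddCommGroup R]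
  [NormedSpace ℝ R] {N r n m : ℕ} {Jc : En (Fin N)} {𝔉 : Fam I M ι lam T}

/-- the row of a cut on all of `L²`: `T - σ` on the Hardy space, the identity on its complement -/
def crow (k : Cut M lam) (B : Base M ι lam) (F : Fr I M ι) (σ : Pc r B k) (c : Cfg M ι lam r)
    (ψ : L2c (Fin c.m.N)) : L2c (Fin c.m.N) :=
  ((k.T B F c.m c.W - σ c) ((Hd c.m.J (c.m.pp B k.x0)).orthogonalProjectionOnto ψ)).1 +
    (ψ - ((Hd c.m.J (c.m.pp B k.x0)).orthogonalProjectionOnto ψ).1)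

/-- a side -/
structure Sid (𝔉 : Fam I M ι lam T) (N : ℕ) (Jc : En (Fin N)) (U Up R : Type)
    [NormedAddCommGroup U] [NormedSpace ℝ U] [NormedAddCommGroup Up] [NormedSpace ℝ Up]
    [NormedAddCommGroup R] [NormedSpace ℝ R] where
  p : M → En (Fin N)
  ρ : ι → M → En (Fin N)
  j : M → CL (Eu lam) (En (Fin N))
  A0 : ι → M → En (Fin N)
  Φ0 : M → Eu (Fin N)
  /-- the moving limit -/
  b : M → CL U (Fm ι (HS (Fin N)))
  /-- the drift of the gauge row -/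
  dr : ι → M → ℝ
  /-- the peak rows `bp • ∫ mo w` -/
  bp : M → ℝ
  mo : M → CL (Cf ι (Fin N)) Up
  /-- the rows that kill the symmetries of the face -/
  lo : M → CL (Cf ι (Fin N)) R
  ht : M → ℝ
  sh : Sm I ht

/-- the data common to all sides -/
structure Cm (N r : ℕ) (h R : Type) [NormedAddCommGroup R] [NormedSpace ℝ R] where
  z0 : EuclideanSpace ℂ (Fin r)
  ψ0 : h → L2c (Fin N)
  lz : CL (EuclideanSpace ℂ (Fin r)) R

/-- equations -/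
structure Eqn (𝔉 : Fam I M ι lam T) (r n m : ℕ) (ct : h → Cut M lam) where
  e : T → PtX M ι lam r n m
  σ : T → ∀ i, Pc r 𝔉.B (ct i)

/-- the parameters -/
abbrev PP (T U : Type) (r : ℕ) (h : Type) (N : ℕ) : Type :=
  T × U × EuclideanSpace ℂ (Fin r) × (h → L2c (Fin N))

/-- values of the field equations -/
abbrev WW (ι : Type) (N : ℕ) (Up : Type) : Type :=
  HS (Fin N) × Eu (Fin N) × Fm (ι × ι) (HS (Fin N)) × Up

/-- values of the further rows -/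
abbrev GG (n m : ℕ) (h : Type) (N : ℕ) (R : Type) : Type :=
  ((Fin n → ℂ) × (Fin m → ℝ)) × (h → L2c (Fin N)) × (h → ℝ) × (h → ℝ) × R

namespace Sid
variable (s : Sid 𝔉 N Jc U Up R) (c : Cm N r h R) {ct : h → Cut M lam} (ε : Eqn 𝔉 r n m ct)

/-- the module -/
abbrev md : Md M ι lam := ⟨N, Jc, s.p, s.ρ, s.j⟩

structure OK : Prop where
  fam : 𝔉.OK
  om : 𝔉.Om = univ ∧ 𝔉.Om' = univ
  q0 : 0 ∈ 𝔉.Q
  ok : s.md.OK I 𝔉.B
  conn : s.md.IsConn 𝔉.B 𝔉.G0 s.A0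
  cp : 𝔉.F0.Cb s.p
  cρ : ∀ a, 𝔉.F0.Cb (s.ρ a)
  cj : 𝔉.F0.Cb s.j
  cA : ∀ a, 𝔉.F0.Cb (s.A0 a)
  cΦ : 𝔉.F0.Cb s.Φ0
  pos : ∀ x, s.md.pp 𝔉.B x (s.Φ0 x) = s.Φ0 x
  cb : 𝔉.F0.Cb s.b
  pb : ∀ x u, s.md.p1 𝔉.B x (s.b x u) = s.b x u
  cd : ∀ a, 𝔉.F0.Cb (s.dr a)
  bp : Sm I s.bp ∧ HasCompactSupport s.bp
  mo : Sm I s.mo ∧ HasCompactSupport s.mo
  lo : Sm I s.lo ∧ HasCompactSupport s.lo
  h0 : ∀ x, 0 ≤ s.ht x
  ch : ∀ a, 𝔉.F0.Cb (𝔉.F0.D a s.ht)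

/-- the reference object -/
@[reducible] def o (H : s.OK) : Ref 𝔉 where
  m := s.md
  A0 := s.A0
  Φ0 := s.Φ0
  ok := H.ok
  conn := H.conn
  cp := H.cp
  cρ := H.cρ
  cj := H.cj
  cA := H.cA
  cΦ := H.cΦ
  pos x := by rw [H.om.2, indicator_univ]; exact H.pos x

/-- the bundles (`= Map77.bd (s.o H)` by `rfl`) -/
def Pg : M → CL (HS (Fin N)) (HS (Fin N)) := 𝔉.Om.indicator s.md.pg
def P1 : M → CL (Fm ι (HS (Fin N))) (Fm ι (HS (Fin N))) :=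
  fun x => idx (fun a b => 𝔉.B.P a b x) (s.Pg x)
def P2 : M → CL (Fm (ι × ι) (HS (Fin N))) (Fm (ι × ι) (HS (Fin N))) :=
  fun x => idx (𝔉.B.sd x) (s.Pg x)
def Pp : M → CL (Eu (Fin N)) (Eu (Fin N)) := 𝔉.Om'.indicator (s.md.pp 𝔉.B)
def Pm : M → CL (Eu (Fin N)) (Eu (Fin N)) := 𝔉.Om'.indicator (s.md.pm 𝔉.B)
abbrev bd : Bd M ι (Fin N) := ⟨𝔉.B.P, 𝔉.B.o, s.ρ, s.Pg, s.P1, s.P2, s.Pp, s.Pm⟩

theorem bd_o (H : s.OK) : Map77.bd (s.o H) = s.bd := rfl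

/-- the configuration (`= Pnt.cfg`) -/
def cfg (w : M → Cf ι (Fin N)) (q : PP T U r h N) : Cfg M ι lam r :=
  ⟨s.md, s.md.addC (𝔉.W0 s.md s.A0 q.1) fun x =>
    idx (𝔉.S q.1 x) (.id ℝ _) (fa (w x) + s.b x q.2.1), s.Φ0 + fun x => fp (w x), c.z0 + q.2.2.1⟩

/-- the gauge row -/
def row (t : T) (w : M → Cf ι (Fin N)) (x : M) : HS (Fin N) :=
  ((s.bd.d0 (𝔉.G t).F (base (𝔉.W0 s.md s.A0 t) s.Φ0)).adj (𝔉.G t).F).app (𝔉.G t).F
      (fun x => sm2 (idx (𝔉.S t x) (.id ℝ _)) (.id ℝ _) (w x)) x +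
    ∑ a, s.dr a x • s.Pg x (fa (w x) a)

/-- the peak rows -/
def pk (w : M → Cf ι (Fin N)) : Up := ∫ x, s.mo x (w x) ∂𝔉.F0.μ

/-- the field equations -/
def eF (e : T → PtX M ι lam r n m) (w : M → Cf ι (Fin N)) (q : PP T U r h N) (x : M) :
    WW ι N Up :=
  (s.row q.1 w x, (e q.1).D (s.cfg c w q) x, (e q.1).C (s.cfg c w q) x, s.bp x • s.pk w)

/-- the further rows -/
def eR (w : M → Cf ι (Fin N)) (q : PP T U r h N) : GG n m h N R :=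
  (((ε.e q.1).S (s.cfg c w q), (ε.e q.1).R (s.cfg c w q)),
    fun i => crow (ct i) 𝔉.B (𝔉.G q.1).F (ε.σ q.1 i) (s.cfg c w q) (c.ψ0 i + q.2.2.2 i),
    fun i => ‖c.ψ0 i + q.2.2.2 i‖ ^ 2 - 1,
    fun i => ⟪Jc.compLpL 2 μc (c.ψ0 i), q.2.2.2 i⟫_ℝ,
    ∫ x, s.lo x (w x) ∂𝔉.F0.μ + c.lz q.2.2.1)

/-- the side of `Gl67/Low` -/
@[reducible] def sd : Sd I M ι (Cf ι (Fin N)) (WW ι N Up) (PP T U r h N) (GG n m h N R) :=
  ⟨𝔉.F0.toPre, s.ht, s.bd.pC, s.eF c ε.e, s.eR c ε⟩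

/-- the same without further rows (cylinder) -/
@[reducible] def sd0 (e : T → PtX M ι lam r n m) :
    Sd I M ι (Cf ι (Fin N)) (WW ι N Up) (PP T U r h N) (GG n m h N R) :=
  ⟨𝔉.F0.toPre, s.ht, s.bd.pC, s.eF c e, 0⟩

/-! ### the Banach model -/

theorem sm_pr (δ x y z : ℝ) : Sm I fun p => pr δ x y z (s.ht p) := cd_pr.contMDiff.comp s.sh

variable (δ : ℝ) (k : ℕ)

/-- the weighted family -/
abbrev wf : Fam I M ι lam T := Nk89.wtF 𝔉 (fun p => g0 δ (s.ht p)) (s.sm_pr δ 0 0 0)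

/-- the weighted Sobolev frame -/
abbrev Fw : Fr I M ι := (s.wf δ).F0

/-- the parameters of the Banach model -/
abbrev PH (r : ℕ) (ct : h → Cut M lam) : Type :=
  T × U × EuclideanSpace ℂ (Fin r) × ∀ i, (ct i).H 𝔉.B s.md

/-- Hardy fields as `L²` fields -/
def emb (q : s.PH r ct) : PP T U r h N := (q.1, q.2.1, q.2.2.1, fun i => q.2.2.2 i)

/-- unknowns -/
abbrev EE (r : ℕ) (ct : h → Cut M lam) (δ : ℝ) (k : ℕ) : Type :=
  (s.Fw δ).H (k + 1) s.bd.pC × s.PH r ct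

/-- equations (the shape of `An.Ext.prob`) -/
abbrev Y1 (n m : ℕ) (ct : h → Cut M lam) (δ : ℝ) (k : ℕ) : Type :=
  ((s.Fw δ).H k s.Pm × (s.Fw δ).H k s.P2 × (Fin n → ℂ) × (Fin m → ℝ)) ×
  (∀ i, (ct i).H 𝔉.B s.md) × (h → ℝ)

/-- rows -/
abbrev Y2 (h : Type) (δ : ℝ) (k : ℕ) : Type := (s.Fw δ).H k s.Pg × Up × (h → ℝ) × R

/-- the domain -/
def dom : Set (s.EE r ct δ k) := {v | v.2.1 ∈ 𝔉.Q}

/-- smooth points -/
def sp (w : Sec I s.bd.pC) (q : s.PH r ct) : s.EE r ct δ k := ((s.Fw δ).toH (k + 1) _ w, q)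

/-- the norm of the bump -/
def nb : ℝ := √(Gl67.N 𝔉.F0.toPre (fun p => g0 δ (s.ht p)) univ k s.bp).toReal

/-- `y` is the value at the smooth point `(w, q)` -/
structure Val (w : M → Cf ι (Fin N)) (q : PP T U r h N) (y : s.Y1 n m ct δ k × s.Y2 h δ k) :
    Prop where
  g : (s.Fw δ).val k _ y.2.1 = fun x => (s.eF c ε.e w q x).1
  D : (s.Fw δ).val k _ y.1.1.1 = fun x => (s.eF c ε.e w q x).2.1
  C : (s.Fw δ).val k _ y.1.1.2.1 = fun x => (s.eF c ε.e w q x).2.2.1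
  pk : y.2.2.1 = s.nb δ k • s.pk w
  e : (y.1.1.2.2, fun i => (y.1.2.1 i : L2c (Fin N)), y.1.2.2, y.2.2.2) = s.eR c ε w q

/-- `H` is the Banach model -/
structure Rep (H : s.EE r ct δ k → s.Y1 n m ct δ k × s.Y2 h δ k) : Prop where
  sm : ContDiffOn ℝ ∞ H (s.dom δ k)
  val : ∀ w q, q.1 ∈ 𝔉.Q → s.Val c ε δ k w.1 (s.emb q) (H (s.sp δ k w q))

/-- values `(0, smooth gauge row, arbitrary rows)` -/
def Rs (n m : ℕ) (ct : h → Cut M lam) (δ : ℝ) (k : ℕ) : Set (s.Y1 n m ct δ k × s.Y2 h δ k) :=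
  {y | y.1 = 0 ∧ ∃ g : Sec I s.Pg, y.2.1 = (s.Fw δ).toH k _ g}

end Sid

end Crest.Agent.X212.Gl67
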