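import Crest.Agent.X212.Gl67.Jet

/-!
# Row 212, GL (helper67), layer 1: the non-linear lower bound on a long neck

Sides `X i` (long neck), `S` (the face: ends instead of the neck) and `Z i` (cylinder) with height
functions `h`.  `E w q` are the equations at (base configuration) `+ w` with the parameters `q`,
`e w q` further equations.
-/

set_option autoImplicit false
set_option linter.unusedSectionVars false
noncomputable section
open scoped Manifold ContDiff Topology ENNReal NNReal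
open MeasureTheory Set Function Filter Real

namespace Crest.Agent.X212.Gl67
open An Sob92

variable {E : Type} [NormedAddCommGroup E] [NormedSpace ℝ E] [FiniteDimensional ℝ E]
  [MeasurableSpace E] [BorelSpace E]
  {HM : Type} [TopologicalSpace HM] {I : ModelWithCorners ℝ E HM}
  {M : Type} [TopologicalSpace M] [ChartedSpace HM M] [IsManifold I ∞ M]
  [MeasurableSpace M] [T2Space M] [BorelSpace M] {ι : Type} [Fintype ι]
  {E' : Type} [NormedAddCommGroup E'] [NormedSpace ℝ E'] [FiniteDimensional ℝ E']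
  [MeasurableSpace E'] [BorelSpace E']
  {HM' : Type} [TopologicalSpace HM'] {I' : ModelWithCorners ℝ E' HM'}
  {M' : Type} [TopologicalSpace M'] [ChartedSpace HM' M'] [IsManifold I' ∞ M']
  [MeasurableSpace M'] [T2Space M'] [BorelSpace M']
  {E'' : Type} [NormedAddCommGroup E''] [NormedSpace ℝ E''] [FiniteDimensional ℝ E'']
  [MeasurableSpace E''] [BorelSpace E'']
  {HM'' : Type} [TopologicalSpace HM''] {I'' : ModelWithCorners ℝ E'' HM''}
  {M'' : Type} [TopologicalSpace M''] [ChartedSpace HM'' M''] [IsManifold I'' ∞ M'']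
  [MeasurableSpace M''] [T2Space M''] [BorelSpace M'']
  {V W P Γ U : Type} [NormedAddCommGroup V] [InnerProductSpace ℝ V] [NormedAddCommGroup W]
  [NormedSpace ℝ W] [NormedAddCommGroup P] [NormedAddCommGroup Γ] [NormedAddCommGroup U]
  [NormedSpace ℝ U]

/-- squared norm -/
def q2 (a : P) : ℝ≥0∞ := ENNReal.ofReal (‖a‖ ^ 2)

theorem q2_zero : q2 (0 : P) = 0 := by simp [q2]

theorem q2_tri (a b : P) : q2 a ≤ 2 * q2 (a - b) + 2 * q2 b := by
  rw [q2, q2, q2, ← ENNReal.ofReal_ofNat, ← ENNReal.ofReal_mul zero_le_two,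
    ← ENNReal.ofReal_mul zero_le_two, ← ENNReal.ofReal_add (by positivity) (by positivity)]
  refine ENNReal.ofReal_le_ofReal ?_
  nlinarith [norm_le_norm_sub_add a b, norm_nonneg a, sq_nonneg (‖a - b‖ - ‖b‖), norm_nonneg b,
    norm_nonneg (a - b)]

variable (I M ι V W P Γ) in
/-- a side -/
structure Sd where
  F : Pre I M ι
  h : M → ℝ
  p : M → V →L[ℝ] V
  E : (M → V) → P → M → W
  e : (M → V) → P → Γ

namespace Sd
variable (s : Sd I M ι V W P Γ)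

/-- squared weighted norm over a set of heights -/
def Q (g : ℝ → ℝ) (A : Set ℝ) (k : ℕ) (u : M → U) : ℝ≥0∞ :=
  N s.F (fun x => g (s.h x)) (s.h ⁻¹' A) k u

structure Ok (r : ℝ) : Prop where
  sm : Sm I s.h
  smE : ∀ w ∈ Sec I s.p, ∀ q, ‖q‖ ≤ r → Sm I (s.E w q)

/-- Lipschitz bounds for all profiles -/
def Lip (δ : ℝ) (k : ℕ) (r : ℝ) (R C : ℝ≥0) : Prop :=
  ∀ x y z, 0 ≤ x → 0 ≤ y → y ≤ z → ∀ w ∈ Sec I s.p, ∀ w' ∈ Sec I s.p, ∀ q q', ‖q‖ ≤ r → ‖q'‖ ≤ r →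
    s.Q (pr δ x y z) univ (k + 1) w ≤ R → s.Q (pr δ x y z) univ (k + 1) w' ≤ R →
    s.Q (pr δ x y z) univ k (s.E w q - s.E w' q') + q2 (s.e w q - s.e w' q') ≤
      C * (s.Q (pr δ x y z) univ (k + 1) (w - w') + q2 (q - q'))

/-- a literal identification that preserves the heights -/
structure Mt (s' : Sd I' M' ι V W P Γ) (φ : OpenPartialHomeomorph M M') : Prop where
  iso : Iso s.F s'.F φ
  h : ∀ x ∈ φ.source, s'.h (φ x) = s.h x
  p : ∀ x ∈ φ.source, s.p x = s'.p (φ x)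

/-- `φ` is defined over the heights in `A` -/
def Cov (s' : Sd I' M' ι V W P Γ) (φ : OpenPartialHomeomorph M M') (A : Set ℝ) : Prop :=
  s.h ⁻¹' A ⊆ φ.source ∧ s'.h ⁻¹' A ⊆ φ.target

/-- cut-off -/
def ct (θ : ℝ → ℝ) (w : M → V) : M → V := fun x => θ (s.h x) • w x

variable {s} {s' : Sd I' M' ι V W P Γ} {φ : OpenPartialHomeomorph M M'} {g g' θ : ℝ → ℝ}
  {A B : Set ℝ} {k : ℕ} {u v : M → U} {w : M → V}

theorem Cov.mono (h : s.Cov s' φ A) (e : B ⊆ A) : s.Cov s' φ B :=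
  ⟨(preimage_mono e).trans h.1, (preimage_mono e).trans h.2⟩

theorem Q_mono (e : A ⊆ B) : s.Q g A k u ≤ s.Q g B k u := N_mono (preimage_mono e)

theorem Q_split (a : ℝ) : s.Q g univ k u ≤ s.Q g (Iic a) k u + s.Q g (Ici a) k u := by
  rw [← Iic_union_Ici (a := a)]; exact N_union

theorem Q_zero : s.Q g A k (0 : M → U) = 0 := N_zero

variable (hs : Sm I s.h)
include hs

theorem Q_wt (hA : MeasurableSet A) {c : ℝ} (e : ∀ t ∈ A, g t ≤ g' t + c) :
    s.Q g A k u ≤ ENNReal.ofReal (exp (2 * c)) * s.Q g' A k u :=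
  N_wt (hs.continuous.measurable hA) fun _ hx => e _ hx

theorem Q_wt' (hA : MeasurableSet A) (e : ∀ t ∈ A, g t ≤ g' t) : s.Q g A k u ≤ s.Q g' univ k u :=
  (N_wt' (hs.continuous.measurable hA) fun _ hx => e _ hx).trans (Q_mono (subset_univ _))

theorem Q_tri (hA : MeasurableSet A) (hg : Continuous g) (hu : Sm I u) (hv : Sm I v) :
    s.Q g A k u ≤ 2 * s.Q g A k (u - v) + 2 * s.Q g A k v :=
  N_tri isOpen_univ (hs.continuous.measurable hA) (subset_univ _) (hg.comp hs.continuous) (smO hu)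
    (smO hv)

theorem ct_mem (hθ : ContDiff ℝ ∞ θ) (hw : w ∈ Sec I s.p) : s.ct θ w ∈ Sec I s.p :=
  ⟨(hθ.contMDiff.comp hs).smul hw.1, hw.2.1.mono fun x hx h => hx (by simp [ct, h]),
    fun x => (map_smul (s.p x) _ _).trans (by rw [hw.2.2 x]; rfl)⟩

theorem ct_supp (hA : IsClosed A) (e : ∀ t ∉ A, θ t = 0) : tsupport (s.ct θ w) ⊆ s.h ⁻¹' A :=
  closure_minimal (fun x hx => by_contra fun h => hx (by simp [ct, e _ h]))
    (hA.preimage hs.continuous)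

theorem Q_ct {C D : ℝ} (hC : ∀ a, s.F.CB k (s.F.D a s.h) C) (hA : MeasurableSet A)
    (hθ : ContDiff ℝ ∞ θ) (hD : Neck67.Bd k θ D) (hw : Sm I w) : s.Q g A k (s.ct θ w) ≤
      ENNReal.ofReal ((2 * Fintype.card ι + 3) ^ k * (cT C k * D) ^ 2) * s.Q g A k w :=
  N_smul (hs.continuous.measurable hA) (hθ.contMDiff.comp hs) (CB_comp hs hC hθ hD) hw

variable (hs' : Sm I' s'.h) (h : s.Mt s' φ) (hc : s.Cov s' φ A) (hA : MeasurableSet A)
  (hg : Continuous g)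
include hs' h hc hA hg

theorem Q_comp {u : M' → U} (hu : Sm I' u) : s.Q g A k (u ∘ φ) = s'.Q g A k u :=
  N_iso h.iso (hg.comp hs'.continuous) (hs.continuous.measurable hA) (hs'.continuous.measurable hA)
    hc.1 hc.2 (fun x hx => by simp only [mem_preimage, h.h x hx])
    (fun x hx => congrArg g (h.h x (hc.1 hx)).symm) hu

theorem Q_tri' {u' : M' → U} (hu : Sm I u) (hu' : Sm I' u') :
    s.Q g A k u ≤ 2 * s.Q g A k (u - u' ∘ φ) + 2 * s'.Q g A k u' :=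
  Q_comp hs hs' h hc hA hg hu' ▸ N_tri φ.open_source (hs.continuous.measurable hA) hc.1
    (hg.comp hs.continuous) (smO hu) (SmO.comp h.iso hu')

omit hs hs' hA hg in
theorem pull_sec {w : M' → V} (hw : w ∈ Sec I' s'.p) (t : tsupport w ⊆ s'.h ⁻¹' A) :
    pull φ w ∈ Sec I s.p ∧ tsupport (pull φ w) ⊆ s.h ⁻¹' A :=
  ⟨pull_mem h.iso h.p hw (t.trans hc.2), fun x hx => by
    have := (Adm.of_isCompact hw.2.1 (t.trans hc.2)).tsupport_pull hx
    rw [mem_preimage, ← h.h x this.1]; exact t this.2⟩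

theorem Q_pull {w : M' → V} (hw : w ∈ Sec I' s'.p) (t : tsupport w ⊆ s'.h ⁻¹' A) :
    s.Q g univ k (pull φ w) = s'.Q g univ k w :=
  (N_supp (pull_sec h hc hw t).2).trans ((N_congr (hs.continuous.measurable hA) fun _ hx =>
    pull_eventuallyEq (hc.1 hx) w).trans ((Q_comp hs hs' h hc hA hg hw.1).trans (N_supp t).symm))

end Sd

theorem pr_le_g0 {δ x y z s t : ℝ} (hδ : 0 ≤ δ)
    (h : ka (s - x) + ka (s - y) - ka (s - z) ≤ ka s + t) : pr δ x y z s ≤ g0 δ s + δ * t := by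
  rw [g0_eq, ← mul_add]; exact mul_le_mul_of_nonneg_left h hδ

theorem g0_le_pr {δ x y z s t : ℝ} (hδ : 0 ≤ δ)
    (h : ka s ≤ ka (s - x) + ka (s - y) - ka (s - z) + t) : g0 δ s ≤ pr δ x y z s + δ * t := by
  rw [g0_eq, pr, ← mul_add]; exact mul_le_mul_of_nonneg_left h hδ

variable {κ : Type} (l : Filter κ) (X : κ → Sd I M ι V W P Γ) (S : Sd I' M' ι V W P Γ)
  (Z : κ → Sd I'' M'' ι V W P Γ) (φ : κ → OpenPartialHomeomorph M' M)
  (ψ : κ → OpenPartialHomeomorph M'' M) (δ : ℝ) (k : ℕ) (r₀ : ℝ) (R : ℝ≥0)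

/-- the inputs of the gluing estimate -/
structure Hyp : Prop where
  δ0 : 0 < δ
  r0 : 0 < r₀
  R0 : 0 < R
  okX : ∀ᶠ i in l, (X i).Ok r₀
  okS : S.Ok r₀
  okZ : ∀ᶠ i in l, (Z i).Ok r₀
  cb : ∃ C, ∀ᶠ i in l, ∀ a, (X i).F.CB (k + 1) ((X i).F.D a (X i).h) C
  mS : ∀ᶠ i in l, S.Mt (X i) (φ i)
  cS : ∀ a, ∀ᶠ i in l, S.Cov (X i) (φ i) (Iic a)
  mZ : ∀ᶠ i in l, (Z i).Mt (X i) (ψ i) ∧ (Z i).Cov (X i) (ψ i) (Ici 1)
  lipX : ∃ C, ∀ᶠ i in l, (X i).Lip δ k r₀ R C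
  lipS : ∃ C, S.Lip δ k r₀ R C
  lipZ : ∃ C, ∀ᶠ i in l, (Z i).Lip δ k r₀ R C
  zS : S.E 0 0 = 0 ∧ S.e 0 0 = 0
  zZ : ∀ᶠ i in l, ∀ q, ‖q‖ ≤ r₀ → (Z i).E 0 q = 0
  isoS : ∃ K r : ℝ≥0, 0 < r ∧ ∀ w ∈ Sec I' S.p, ∀ q, ‖q‖ ≤ r → S.Q (g0 δ) univ (k + 1) w ≤ r →
    S.Q (g0 δ) univ (k + 1) w + q2 q ≤ K * (S.Q (g0 δ) univ k (S.E w q) + q2 (S.e w q))
  isoZ : ∃ (K r : ℝ≥0) (b : ℝ), 0 < r ∧ ∀ᶠ i in l, ∀ w ∈ Sec I'' (Z i).p,
    tsupport w ⊆ (Z i).h ⁻¹' Ici b → ∀ q, ‖q‖ ≤ r → (Z i).Q (g0 δ) univ (k + 1) w ≤ r →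
      (Z i).Q (g0 δ) univ (k + 1) w ≤ K * (Z i).Q (g0 δ) univ k ((Z i).E w q)
  locS : ∀ a, ∀ η : ℝ≥0, 0 < η → ∀ᶠ i in l, ∀ w ∈ Sec I (X i).p, tsupport w ⊆ (X i).h ⁻¹' Iic a →
    ∀ q, ‖q‖ ≤ r₀ → (X i).Q (g0 δ) univ (k + 1) w ≤ R →
      S.Q (g0 δ) (Iic a) k (S.E (pull (φ i) w) q - (X i).E w q ∘ φ i) +
        q2 (S.e (pull (φ i) w) q - (X i).e w q) ≤ η
  locZ : ∀ b, ∀ η : ℝ≥0, 0 < η → ∃ a, ∀ᶠ i in l, ∀ w ∈ Sec I (X i).p, ∀ w' ∈ Sec I (X i).p,
    tsupport w' ⊆ (X i).h ⁻¹' Ici 1 → (∀ x, b < (X i).h x → w' x = w x) → ∀ q, ‖q‖ ≤ r₀ →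
      (X i).Q (g0 δ) univ (k + 1) w ≤ R → (X i).Q (g0 δ) univ (k + 1) w' ≤ R →
      (Z i).Q (g0 δ) (Ici a) k ((Z i).E (pull (ψ i) w') q - (X i).E w q ∘ ψ i) ≤ η

variable {l X S Z φ ψ δ k r₀ R} (H : Hyp l X S Z φ ψ δ k r₀ R)
include H
open Sd

/-- the base configurations are approximate solutions -/
theorem Hyp.zero :
    Tendsto (fun i => (X i).Q (g0 δ) univ k ((X i).E 0 0) + q2 ((X i).e 0 0)) l (𝓝 0) := by
  refine ENNReal.tendsto_nhds_zero.2 fun ε hε => ?_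
  obtain ⟨η, h1, h2⟩ := ENNReal.exists_nnreal_pos_mul_lt (a := 2) (by simp) hε.ne'
  obtain ⟨a, ha⟩ := H.locZ 0 η h1
  have p0 : ∀ {M M' : Type} [TopologicalSpace M] [TopologicalSpace M']
      (φ : OpenPartialHomeomorph M M'), pull φ (0 : M' → V) = 0 := fun φ => by simp [pull]
  have r0 : ‖(0 : P)‖ ≤ r₀ := norm_zero.trans_le H.r0.le
  filter_upwards [ha, H.locS (max a 1) η h1, H.okX, H.okZ, H.mS, H.cS (max a 1), H.mZ, H.zZ]
    with i a1 a2 oX oZ mS cS mZ zZ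
  have b1 := a1 0 (zero_mem _) 0 (zero_mem _) (by simp) (fun _ _ => rfl) 0 r0
    (Q_zero.trans_le zero_le) (Q_zero.trans_le zero_le)
  have b2 := a2 0 (zero_mem _) (by simp) 0 r0 (Q_zero.trans_le zero_le)
  have sE := oX.smE 0 (zero_mem _) 0 r0
  have b3 := (Q_mono (Ici_subset_Ici.2 (le_max_left a 1))).trans b1
  rw [p0, zZ 0 r0, zero_sub, Q, N_neg, ← Q, Q_comp oZ.sm oX.sm mZ.1 (mZ.2.mono (Ici_subset_Ici.2
    (le_max_right a 1))) measurableSet_Ici cd_pr.continuous sE] at b3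
  rw [p0, H.zS.1, H.zS.2, zero_sub, zero_sub, q2, norm_neg, ← q2, Q, N_neg, ← Q,
    Q_comp H.okS.sm oX.sm mS cS measurableSet_Iic cd_pr.continuous sE] at b2
  refine (add_le_add (Q_split (max a 1)) le_rfl).trans ?_
  rw [add_right_comm]
  exact (add_le_add b2 b3).trans ((mul_two _).symm.trans_le h2.le)

/-- **the approximate non-linear lower bound** -/
theorem Hyp.low : ∃ K r : ℝ≥0, 0 < r ∧ ∀ ε : ℝ≥0∞, ε ≠ 0 → ∀ᶠ i in l, ∀ w ∈ Sec I (X i).p, ∀ q,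
    ‖q‖ ≤ r → (X i).Q (g0 δ) univ (k + 1) w ≤ r → (X i).Q (g0 δ) univ (k + 1) w + q2 q ≤
      K * ((X i).Q (g0 δ) univ k ((X i).E w q) + q2 ((X i).e w q)) + ε := by
  obtain ⟨C, hC⟩ := H.cb
  obtain ⟨CX, lX⟩ := H.lipX
  obtain ⟨CS, lS⟩ := H.lipS
  obtain ⟨CZ, lZ⟩ := H.lipZ
  obtain ⟨KS, rS, rS0, iS⟩ := H.isoS
  obtain ⟨KZ, rZ, b₀, rZ0, iZ⟩ := H.isoZ
  have δ0 := H.δ0.le
  set c : ℝ≥0 := ((2 * Fintype.card ι + 3) ^ (k + 1) *
    (cT C (k + 1) * (2 * Neck67.cS (k + 1))) ^ 2 : ℝ).toNNReal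
  set ρ : ℝ≥0 := min (min rS rZ) (min (R / 2) (min 1 ⟨r₀, H.r0.le⟩))
  have ρ0 : 0 < ρ := lt_min (lt_min rS0 rZ0) (lt_min (half_pos H.R0) (lt_min one_pos H.r0))
  have ρ1 : ρ ≤ rS := (min_le_left _ _).trans (min_le_left _ _)
  have ρ2 : ρ ≤ rZ := (min_le_left _ _).trans (min_le_right _ _)
  have ρ3 : ρ ≤ R / 2 := (min_le_right _ _).trans (min_le_left _ _)
  have ρ4 : ρ ≤ 1 := (min_le_right _ _).trans ((min_le_right _ _).trans (min_le_left _ _))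
  have ρ5 : (ρ : ℝ) ≤ r₀ := NNReal.coe_le_coe.2 ((min_le_right (min rS rZ) _).trans
    ((min_le_right _ _).trans (min_le_right _ ⟨r₀, H.r0.le⟩)))
  have r1 : ρ / (c + 1) ≤ ρ := div_le_self ρ0.le le_add_self
  have r2 : c * (ρ / (c + 1)) ≤ ρ := by
    rw [mul_div_assoc', div_le_iff₀ (by positivity), mul_comm]; gcongr; exact le_self_add
  refine ⟨8 * KS + 8 * KZ, ρ / (c + 1), by positivity, fun ε hε => ?_⟩
  obtain ⟨η, η0, η1⟩ := ENNReal.exists_nnreal_pos_mul_lt (a := ((2 * KS * (2 + 8 * c * CX + CS *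
    (R + 1)) + 2 * KZ * (6 * c * CZ + 4) : ℝ≥0) : ℝ≥0∞)) ENNReal.coe_ne_top hε
  obtain ⟨L, L0, L1⟩ : ∃ L : ℝ, 0 ≤ L ∧ ENNReal.ofReal (exp (2 * (δ * -L))) ≤ η := by
    refine ⟨|log η| / (2 * δ), by positivity, ENNReal.ofReal_le_of_le_toReal ?_⟩
    rw [show 2 * (δ * -(|log η| / (2 * δ))) = -|log η| by field_simp [H.δ0.ne']]
    exact (exp_le_exp.2 (neg_abs_le _)).trans_eq (exp_log η0)
  obtain ⟨β, β0, β1⟩ := ENNReal.exists_nnreal_pos_mul_lt
    (a := c * ENNReal.ofReal (exp (2 * (δ * L)))) (b := (R / 2 : ℝ≥0))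
    (ENNReal.mul_ne_top ENNReal.coe_ne_top ENNReal.ofReal_ne_top) (by simpa using H.R0.ne')
  obtain ⟨n, n1⟩ := ENNReal.exists_nat_mul_gt (a := (min β η : ℝ≥0)) (b := 1)
    (by simpa using ⟨β0.ne', η0.ne'⟩) (by simp)
  have n0 : 0 < n := Nat.pos_of_ne_zero fun e => by simp [e] at n1
  set b := max b₀ (L + 1)
  have b1 : L + 1 ≤ b := le_max_right _ _
  obtain ⟨a₀, lo⟩ := H.locZ (b + 1) η η0
  set a₁ := max a₀ (b + 1)
  have a2 : b + 1 ≤ a₁ := le_max_right _ _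
  have a3 : a₀ ≤ a₁ := le_max_left _ _
  set T := a₁ + n * (2 * L + 4)
  filter_upwards [hC, lX, lZ, iZ, lo, H.locS T η η0, H.okX, H.okZ, H.mS, H.cS T, H.mZ, H.zZ]
    with i hC lX lZ iZ lo ls oX oZ mS cS mZ zZ w hw q hq hQ
  have oS := H.okS
  have q0 : ‖q‖ ≤ r₀ := hq.trans ((NNReal.coe_le_coe.2 r1).trans ρ5)
  have q1 : q2 q ≤ 1 := ENNReal.ofReal_le_one.2 (pow_le_one₀ (norm_nonneg _)
    (hq.trans (NNReal.coe_le_coe.2 (r1.trans ρ4))))
  have Q1 : (X i).Q (g0 δ) univ (k + 1) w ≤ 1 := hQ.trans (ENNReal.coe_le_one_iff.2 (r1.trans ρ4))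
  have QR : (X i).Q (g0 δ) univ (k + 1) w ≤ R :=
    hQ.trans (ENNReal.coe_le_coe.2 (r1.trans (ρ3.trans (half_le_self R.2))))
  obtain ⟨j, j1, j2⟩ := N_pigeon (F := (X i).F) (g := fun x => g0 δ ((X i).h x)) (k := k + 1) (u := w)
    n0 (A := fun j => (X i).h ⁻¹' Ico (a₁ + j * (2 * L + 4)) (a₁ + (j + 1 : ℕ) * (2 * L + 4)))
    (fun j => oX.sm.continuous.measurable measurableSet_Ico)
    ((Monotone.pairwise_disjoint_on_Ico_succ (f := fun j : ℕ => a₁ + j * (2 * L + 4))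
      fun _ _ e => add_le_add le_rfl (mul_le_mul_of_nonneg_right (Nat.cast_le.2 e)
        (by linarith))).mono fun _ _ e => e.preimage _)
  obtain ⟨a, ha⟩ : ∃ a, a = a₁ + j * (2 * L + 4) + L + 2 := ⟨_, rfl⟩
  have j3 : (0 : ℝ) ≤ j * (2 * L + 4) := by positivity
  have j4 : ((j : ℝ) + 1) * (2 * L + 4) ≤ n * (2 * L + 4) := by
    gcongr; exact_mod_cast j1
  have aT : a + 1 ≤ T := by simp only [T]; linarith
  have aL : b + 1 + L + 2 ≤ a := by linarith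
  have hB : (X i).Q (g0 δ) (Icc (a - L - 1) (a + L + 1)) (k + 1) w ≤ (min β η : ℝ≥0) := by
    refine (Q_mono (B := Ico _ _) fun t ht => ?_).trans
      ((ENNReal.mul_le_mul_iff_right (by simpa using n0.ne') (by simp)).1 (j2.trans (Q1.trans n1.le)))
    exact ⟨by linarith [ht.1], by push_cast; linarith [ht.2]⟩
  -- cut-offs
  let σ : ℝ → ℝ → ℝ := fun a t => smoothTransition (t - a)
  have cS1 := Neck67.one_le_cS (k + 1)
  have σ0 : ∀ a t, t ∉ Ici a → σ a t = 0 := fun a t h =>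
    smoothTransition.zero_of_nonpos (sub_nonpos.2 (not_le.1 h).le)
  have σ1 : ∀ a t, a + 1 ≤ t → σ a t = 1 := fun a t h =>
    smoothTransition.one_of_one_le (by linarith)
  have k0 : ∀ {θ : ℝ → ℝ}, ContDiff ℝ ∞ θ → Neck67.Bd (k + 1) θ (2 * Neck67.cS (k + 1)) →
      ∀ (g : ℝ → ℝ) {A}, MeasurableSet A → (X i).Q g A (k + 1) ((X i).ct θ w) ≤
        c * (X i).Q g A (k + 1) w := fun h1 h2 _ _ hA => Q_ct oX.sm hC hA h1 h2 hw.1
  have k1 : ∀ {θ : ℝ → ℝ}, ContDiff ℝ ∞ θ → Neck67.Bd (k + 1) θ (2 * Neck67.cS (k + 1)) →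
      (X i).Q (g0 δ) univ (k + 1) ((X i).ct θ w) ≤ ρ := fun h1 h2 =>
    (k0 h1 h2 _ .univ).trans ((mul_le_mul_right hQ _).trans (by exact_mod_cast r2))
  have k2 : ∀ {θ : ℝ → ℝ}, ContDiff ℝ ∞ θ → Neck67.Bd (k + 1) θ (2 * Neck67.cS (k + 1)) →
      ∀ {g : ℝ → ℝ} {A A' : Set ℝ} {t t' : ℝ}, MeasurableSet A' →
      tsupport ((X i).ct θ w) ⊆ (X i).h ⁻¹' A → A ⊆ A' ∪ Icc (a - L - 1) (a + L + 1) →
      (∀ s ∈ A', g s ≤ g0 δ s + δ * t) → (∀ s, g s ≤ g0 δ s + δ * t') →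
      (X i).Q g univ (k + 1) ((X i).ct θ w) ≤
        ENNReal.ofReal (exp (2 * (δ * t))) * (c * (X i).Q (g0 δ) univ (k + 1) w) +
        ENNReal.ofReal (exp (2 * (δ * t'))) * (c * (min β η : ℝ≥0)) :=
    fun h1 h2 _ _ _ _ _ hA h3 h4 h5 h6 => (N_supp (h3.trans (preimage_mono h4))).trans_le
      (N_union.trans (add_le_add ((Q_wt oX.sm hA h5).trans (mul_le_mul_right ((k0 h1 h2 _ hA).trans
        (mul_le_mul_right (Q_mono (subset_univ _)) _)) _))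
        ((Q_wt oX.sm measurableSet_Icc fun s _ => h6 s).trans (mul_le_mul_right
          ((k0 h1 h2 _ measurableSet_Icc).trans (mul_le_mul_right hB _)) _))))
  have k3 : ENNReal.ofReal (exp (2 * (δ * -L))) * (c * (X i).Q (g0 δ) univ (k + 1) w) +
      ENNReal.ofReal (exp (2 * (δ * 0))) * (c * (min β η : ℝ≥0)) ≤ 2 * c * η := by
    have : ((min β η : ℝ≥0) : ℝ≥0∞) ≤ η := ENNReal.coe_le_coe.2 (min_le_right _ _)
    calc _ ≤ (η : ℝ≥0∞) * (c * 1) + 1 * (c * η) := by gcongr; simp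
      _ = _ := by ring
  have d1 : ContDiff ℝ ∞ (1 - σ a) := contDiff_const.sub (cd_st a)
  have e1 : Neck67.Bd (k + 1) (1 - σ a) (2 * Neck67.cS (k + 1)) :=
    ((Neck67.Bd.const (a := 1) (M := 1) (by simp)).sub contDiff_const (cd_st a) (bd_st _ a)).mono
      (by linarith)
  have e2 : ∀ a, Neck67.Bd (k + 1) (σ a) (2 * Neck67.cS (k + 1)) := fun a =>
    (bd_st _ a).mono (by linarith)
  have d4 : ContDiff ℝ ∞ (σ b - σ a) := (cd_st b).sub (cd_st a)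
  have e4 : Neck67.Bd (k + 1) (σ b - σ a) (2 * Neck67.cS (k + 1)) :=
    ((bd_st _ b).sub (cd_st b) (cd_st a) (bd_st _ a)).mono (by linarith)
  set w1 := (X i).ct (1 - σ a) w
  set w2 := (X i).ct (σ a) w
  set w3 := (X i).ct (σ b) w
  set w4 := (X i).ct (σ b - σ a) w
  have m1 : w1 ∈ Sec I (X i).p := ct_mem oX.sm d1 hw
  have m2 : w2 ∈ Sec I (X i).p := ct_mem oX.sm (cd_st a) hw
  have m3 : w3 ∈ Sec I (X i).p := ct_mem oX.sm (cd_st b) hw
  have m4 : w4 ∈ Sec I (X i).p := ct_mem oX.sm d4 hw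
  have s1 : tsupport w1 ⊆ (X i).h ⁻¹' Iic (a + 1) := ct_supp oX.sm isClosed_Iic fun t h => by
    simp [σ1 a t (not_le.1 h).le]
  have s2 : tsupport w2 ⊆ (X i).h ⁻¹' Ici a := ct_supp oX.sm isClosed_Ici (σ0 a)
  have s3 : tsupport w3 ⊆ (X i).h ⁻¹' Ici b := ct_supp oX.sm isClosed_Ici (σ0 b)
  have s4 : tsupport w4 ⊆ (X i).h ⁻¹' Icc b (a + 1) := ct_supp oX.sm isClosed_Icc fun t h => by
    rcases lt_or_ge t b with e | e
    · rw [Pi.sub_apply, σ0 b t (not_le.2 e), σ0 a t (not_le.2 (by linarith : t < a)), sub_self]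
    · have := not_le.1 fun e' => h ⟨e, e'⟩
      rw [Pi.sub_apply, σ1 b t (by linarith), σ1 a t this.le, sub_self]
  have w12 : w - w1 = w2 := funext fun x => by simp [w1, w2, ct, sub_smul]
  have w32 : w3 - w2 = w4 := funext fun x => by simp [w3, w2, w4, ct, sub_smul]
  have ρR : ((ρ : ℝ≥0) : ℝ≥0∞) ≤ R := ENNReal.coe_le_coe.2 (ρ3.trans (half_le_self R.2))
  -- profiles
  have a0 : 0 ≤ a - L - 1 := by linarith
  have g1a : ∀ s ∈ Iic a, g0 δ s ≤ pr δ (a + L) 0 a s := fun s hs => by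
    simpa using g0_le_pr (t := 0) δ0 (by
      rw [ka_zero (sub_nonpos.2 hs), sub_zero s]; linarith [ka_nonneg (s - (a + L))])
  have g1b : ∀ s, pr δ (a + L) 0 a s ≤ g0 δ s + δ * 0 := fun s => pr_le_g0 δ0 (by
    rw [sub_zero]; linarith [ka_mono (show s - (a + L) ≤ s - a by linarith)])
  have g3b : ∀ s, pr δ L (a - L - 1) (a - 1) s ≤ g0 δ s + δ * 0 := fun s => pr_le_g0 δ0 (by
    rcases le_total s (a - L - 1) with e | e
    · linarith [ka_zero (sub_nonpos.2 e), ka_nonneg (s - (a - 1)), ka_mono (sub_le_self s L0)]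
    · linarith [ka_lin (show 1 ≤ s - L by linarith) (sub_le_self s L0),
        ka_lip (show s - (a - 1) ≤ s - (a - L - 1) by linarith)])
  have t2 : (X i).Q (pr δ (a + L) 0 a) univ (k + 1) w2 ≤ 2 * c * η :=
    (k2 (cd_st a) (e2 a) (A' := Ici (a + L + 1)) measurableSet_Ici s2
      (fun s hs => (le_total (a + L + 1) s).imp id fun e => ⟨by linarith [mem_Ici.1 hs], e⟩)
      (fun s hs => pr_le_g0 δ0 (by
        rw [sub_zero]
        linarith [ka_lin (show 1 ≤ s - (a + L) by linarith [mem_Ici.1 hs])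
          (show s - (a + L) ≤ s - a by linarith)])) g1b).trans k3
  have t4 : (X i).Q (pr δ L (a - L - 1) (a - 1)) univ (k + 1) w4 ≤ 2 * c * η :=
    (k2 d4 e4 (A' := Icc (L + 1) (a - L - 1)) measurableSet_Icc s4
      (fun s hs => (le_total s (a - L - 1)).imp (fun e => ⟨b1.trans hs.1, e⟩)
        fun e => ⟨e, by linarith [hs.2]⟩)
      (fun s hs => pr_le_g0 δ0 (by
        linarith [ka_zero (sub_nonpos.2 hs.2), ka_nonneg (s - (a - 1)),
          ka_lin (show 1 ≤ s - L by linarith [hs.1]) (sub_le_self s L0)])) g3b).trans k3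
  have t1 : (X i).Q (pr δ 0 (a - L - 1) (a - 1)) univ (k + 1) w1 ≤ R := by
    refine (k2 d1 e1 (A' := Iic (a - L - 1)) (t := 0) (t' := L) measurableSet_Iic s1
      (fun s hs => (le_total s (a - L - 1)).imp id fun e => ⟨e, by linarith [mem_Iic.1 hs]⟩)
      (fun s hs => pr_le_g0 δ0 (by
        rw [sub_zero]; linarith [ka_zero (sub_nonpos.2 (mem_Iic.1 hs)), ka_nonneg (s - (a - 1))]))
      fun s => pr_le_g0 δ0 (by
        rw [sub_zero]; linarith [ka_lip (show s - (a - 1) ≤ s - (a - L - 1) by linarith)])).trans ?_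
    have h1 : ((min β η : ℝ≥0) : ℝ≥0∞) ≤ β := ENNReal.coe_le_coe.2 (min_le_left _ _)
    calc _ ≤ 1 * (c * (ρ / (c + 1) : ℝ≥0)) + ENNReal.ofReal (exp (2 * (δ * L))) * (c * β) := by
          gcongr; simp
      _ ≤ (R / 2 : ℝ≥0) + (R / 2 : ℝ≥0) := add_le_add (by rw [one_mul]; exact_mod_cast r2.trans ρ3)
          (le_of_eq_of_le (by ring) β1.le)
      _ = R := by rw [← ENNReal.coe_add, add_halves]
  have le0 : ∀ {g : ℝ → ℝ} {u : M → V}, (∀ s, g s ≤ g0 δ s + δ * 0) →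
      (X i).Q (g0 δ) univ (k + 1) u ≤ R → (X i).Q g univ (k + 1) u ≤ R := fun h1 h2 =>
    (Q_wt' oX.sm .univ fun s _ => by simpa using h1 s).trans h2
  set Hx := (X i).Q (g0 δ) univ k ((X i).E w q) + q2 ((X i).e w q)
  have cg := (cd_pr (δ := δ) (a := 0) (b := 0) (c := 0)).continuous
  -- the side `S`
  have cS1 := cS.mono (Iic_subset_Iic.2 aT)
  obtain ⟨u1, -⟩ := pull_sec mS cS1 m1 s1
  have v1 := fun {g} (hg : Continuous g) => Q_pull (k := k + 1) oS.sm oX.sm mS cS1 measurableSet_Iic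
    hg m1 s1
  have x1 : (X i).Q (g0 δ) (Iic a) k ((X i).E w1 q - (X i).E w q) +
      q2 ((X i).e w1 q - (X i).e w q) ≤ CX * (2 * c * η) := by
    have := lX (a + L) 0 a (by linarith) le_rfl (by linarith) w1 m1 w hw q q q0 q0
      (le0 g1b ((k1 d1 e1).trans ρR)) (le0 g1b QR)
    rw [sub_self q, q2_zero, add_zero, Q, Q, N_sub_comm (u := w1), w12] at this
    exact (add_le_add (Q_wt' oX.sm measurableSet_Iic g1a) le_rfl).trans
      (this.trans (mul_le_mul_right t2 _))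
  have x2 := (add_le_add (Q_mono (Iic_subset_Iic.2 (by linarith : a ≤ T))) le_rfl).trans
    (ls w1 m1 (s1.trans (preimage_mono (Iic_subset_Iic.2 aT))) q q0 ((k1 d1 e1).trans ρR))
  have x3 := Q_tri' (k := k) oS.sm oX.sm mS (cS1.mono (Iic_subset_Iic.2 (by linarith : a ≤ a + 1)))
    measurableSet_Iic cg (oS.smE _ u1 q q0) (oX.smE _ m1 q q0)
  have x4 := Q_tri (k := k) oX.sm (measurableSet_Iic (a := a)) cg (oX.smE _ m1 q q0)
    (oX.smE _ hw q q0)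
  have x5 : S.Q (g0 δ) (Ici a) k (S.E (pull (φ i) w1) q) ≤ η * (CS * (R + 1)) := by
    have := lS 0 (a - L - 1) (a - 1) le_rfl a0 (by linarith) _ u1 0 (zero_mem _) q 0 q0
      (norm_zero.trans_le H.r0.le) ((v1 cd_pr.continuous).trans_le t1) (Q_zero.trans_le zero_le)
    rw [H.zS.1, sub_zero, sub_zero, sub_zero q, v1 cd_pr.continuous] at this
    refine (Q_wt oS.sm measurableSet_Ici fun s hs => g0_le_pr (x := 0) (y := a - L - 1) (z := a - 1)
      (t := -L) δ0 ?_).trans (mul_le_mul' L1 ((Q_mono (subset_univ _)).trans (le_self_add.trans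
        (this.trans (mul_le_mul_right (add_le_add t1 q1) _)))))
    rw [sub_zero]
    linarith [ka_lin (show 1 ≤ s - (a - 1) by linarith [mem_Ici.1 hs])
      (show s - (a - 1) ≤ s - (a - L - 1) by linarith)]
  have y1 : (X i).Q (g0 δ) univ (k + 1) w1 + q2 q ≤
      KS * (2 * η + 2 * (2 * (CX * (2 * c * η)) + 2 * Hx) + η * (CS * (R + 1))) := by
    rw [← v1 cg]
    refine (iS _ u1 q (hq.trans (NNReal.coe_le_coe.2 (r1.trans ρ1))) ((v1 cg).trans_le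
      ((k1 d1 e1).trans (ENNReal.coe_le_coe.2 ρ1)))).trans (mul_le_mul_right ?_ _)
    refine (add_le_add (Q_split a) le_rfl).trans ?_
    rw [add_right_comm]
    refine add_le_add ((add_le_add x3 (q2_tri _ ((X i).e w1 q))).trans ?_) x5
    rw [add_add_add_comm, ← mul_add, ← mul_add]
    refine add_le_add (mul_le_mul_right x2 _) (mul_le_mul_right
      ((add_le_add x4 (q2_tri _ ((X i).e w q))).trans ?_) _)
    rw [add_add_add_comm, ← mul_add, ← mul_add]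
    exact add_le_add (mul_le_mul_right x1 _)
      (mul_le_mul_right (add_le_add (Q_mono (subset_univ _)) le_rfl) _)
  -- the side `Z`
  have cZ := mZ.2.mono (Ici_subset_Ici.2 (by linarith : 1 ≤ b))
  have cZa := cZ.mono (Ici_subset_Ici.2 (by linarith : b ≤ a))
  have s2' := s2.trans (preimage_mono (Ici_subset_Ici.2 (by linarith : b ≤ a)))
  obtain ⟨u2, f2⟩ := pull_sec mZ.1 cZ m2 s2'
  obtain ⟨u3, -⟩ := pull_sec mZ.1 cZ m3 s3
  have v2 := fun {g} (hg : Continuous g) {u} (m : u ∈ Sec I (X i).p) s =>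
    Q_pull (k := k + 1) oZ.sm oX.sm mZ.1 cZ measurableSet_Ici hg m s
  have z1 : (Z i).Q (g0 δ) (Iic a) k ((Z i).E (pull (ψ i) w2) q) ≤ CZ * (2 * c * η) := by
    have := lZ (a + L) 0 a (by linarith) le_rfl (by linarith) _ u2 0 (zero_mem _) q q q0 q0
      ((v2 cd_pr.continuous m2 s2').trans_le (le0 g1b ((k1 (cd_st a) (e2 a)).trans ρR)))
      (Q_zero.trans_le zero_le)
    rw [zZ q q0, sub_zero, sub_zero, sub_self q, q2_zero, add_zero, v2 cd_pr.continuous m2 s2']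
      at this
    exact (Q_wt' oZ.sm measurableSet_Iic g1a).trans (le_self_add.trans
      (this.trans (mul_le_mul_right t2 _)))
  have z2 : (Z i).Q (g0 δ) (Ici a) k ((Z i).E (pull (ψ i) w2) q - (Z i).E (pull (ψ i) w3) q) ≤
      CZ * (2 * c * η) := by
    have := lZ L (a - L - 1) (a - 1) L0 a0 (by linarith) _ u3 _ u2 q q q0 q0
      ((v2 cd_pr.continuous m3 s3).trans_le (le0 g3b ((k1 (cd_st b) (e2 b)).trans ρR)))
      ((v2 cd_pr.continuous m2 s2').trans_le (le0 g3b ((k1 (cd_st a) (e2 a)).trans ρR)))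
    rw [sub_self q, q2_zero, add_zero, show pull (ψ i) w3 - pull (ψ i) w2 = pull (ψ i) w4 by
      rw [← w32, sub_eq_iff_eq_add, ← pull_add, sub_add_cancel], v2 cd_pr.continuous m4
        (s4.trans (preimage_mono Icc_subset_Ici_self)), Q, N_sub_comm] at this
    refine (Q_wt' oZ.sm measurableSet_Ici fun s hs => ?_).trans (le_self_add.trans
      (this.trans (mul_le_mul_right t4 _)))
    have := mem_Ici.1 hs
    simpa using g0_le_pr (x := L) (y := a - L - 1) (z := a - 1) (t := 0) δ0 (by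
      linarith [ka_lin (show 1 ≤ s - L by linarith) (sub_le_self s L0),
        ka_lin (show 1 ≤ s - (a - 1) by linarith) (show s - (a - 1) ≤ s - (a - L - 1) by linarith)])
  have z3 := (Q_mono (Ici_subset_Ici.2 (by linarith : a₀ ≤ a))).trans
    (lo w hw w3 m3 (s3.trans (preimage_mono (Ici_subset_Ici.2 (by linarith))))
      (fun x hx => by simp [w3, ct, σ1 b _ hx.le]) q q0 QR ((k1 (cd_st b) (e2 b)).trans ρR))
  have z4 := Q_tri' (k := k) oZ.sm oX.sm mZ.1 cZa measurableSet_Ici cg (oZ.smE _ u3 q q0)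
    (oX.smE _ hw q q0)
  have z5 := Q_tri (k := k) oZ.sm (measurableSet_Ici (a := a)) cg (oZ.smE _ u2 q q0)
    (oZ.smE _ u3 q q0)
  have y2 : (X i).Q (g0 δ) univ (k + 1) w2 ≤
      KZ * (CZ * (2 * c * η) + (2 * (CZ * (2 * c * η)) + 2 * (2 * η + 2 * Hx))) := by
    rw [← v2 cg m2 s2']
    refine (iZ _ u2 (f2.trans (preimage_mono (Ici_subset_Ici.2 (le_max_left _ _)))) q
      (hq.trans (NNReal.coe_le_coe.2 (r1.trans ρ2))) ((v2 cg m2 s2').trans_le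
      ((k1 (cd_st a) (e2 a)).trans (ENNReal.coe_le_coe.2 ρ2)))).trans (mul_le_mul_right ?_ _)
    exact (Q_split a).trans (add_le_add z1 (z5.trans (add_le_add (mul_le_mul_right z2 _)
      (mul_le_mul_right (z4.trans (add_le_add (mul_le_mul_right z3 _)
        (mul_le_mul_right ((Q_mono (subset_univ _)).trans le_self_add) _))) _))))
  have y3 := Q_tri (k := k + 1) oX.sm .univ cg hw.1 m1.1
  rw [w12] at y3
  calc _ ≤ 2 * (X i).Q (g0 δ) univ (k + 1) w2 + 2 * ((X i).Q (g0 δ) univ (k + 1) w1 + q2 q) := by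
        rw [mul_add, ← add_assoc]
        exact add_le_add y3 (le_mul_of_one_le_left' one_le_two)
    _ ≤ _ := (add_le_add (mul_le_mul_right y2 _) (mul_le_mul_right y1 _)).trans
        (le_of_eq_of_le (by push_cast; ring) (add_le_add le_rfl η1.le))

end Crest.Agent.X212.Gl67
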